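import Vale.Agent.Lib.P047.Basic

namespace Vale.Agent.Lib.P047

open Finset

set_option linter.unusedSectionVars false

variable {ι κ : Type*} [Fintype ι] [DecidableEq ι] [Fintype κ] [DecidableEq κ]

/-- The composition `h ∘ (g, …, g)`: the outer function `h` is applied to the values of the
inner function `g` on disjoint blocks of variables. -/
def comp (h : (ι → ℤˣ) → ℤˣ) (g : (κ → ℤˣ) → ℤˣ) : (ι × κ → ℤˣ) → ℤˣ :=
  fun x => h (fun j => g (fun i => x (j, i)))

/-- The fiber of `U ⊆ ι × κ` over `j`. -/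
def fiber (U : Finset (ι × κ)) (j : ι) : Finset κ :=
  (U.filter fun p => p.1 = j).image Prod.snd

theorem prod_fiber (U : Finset (ι × κ)) (φ : ι → κ → ℝ) :
    ∏ p ∈ U, φ p.1 p.2 = ∏ j, ∏ i ∈ fiber U j, φ j i := by
  rw [← Finset.prod_fiberwise U Prod.fst]
  refine Finset.prod_congr rfl fun j _ => ?_
  unfold fiber
  rw [Finset.prod_image]
  · refine Finset.prod_congr rfl fun p hp => ?_
    rw [(Finset.mem_filter.mp hp).2]
  · intro p hp q hq hpq
    have h1 := (Finset.mem_filter.mp hp).2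
    have h2 := (Finset.mem_filter.mp hq).2
    exact Prod.ext (h1.trans h2.symm) hpq

theorem fiber_nonempty_iff (U : Finset (ι × κ)) (j : ι) :
    (fiber U j).Nonempty ↔ j ∈ U.image Prod.fst := by
  unfold fiber
  rw [Finset.image_nonempty, Finset.filter_nonempty_iff, Finset.mem_image]

theorem fiber_eq_empty_iff (U : Finset (ι × κ)) (j : ι) :
    fiber U j = ∅ ↔ j ∉ U.image Prod.fst := by
  rw [← fiber_nonempty_iff, Finset.not_nonempty_iff_eq_empty]

theorem card_eq_sum_fiber (U : Finset (ι × κ)) :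
    U.card = ∑ j ∈ U.image Prod.fst, (fiber U j).card := by
  rw [Finset.card_eq_sum_card_image Prod.fst U]
  refine Finset.sum_congr rfl fun j _ => ?_
  unfold fiber
  rw [Finset.card_image_of_injOn]
  intro p hp q hq hpq
  have h1 := (Finset.mem_filter.mp (Finset.mem_coe.mp hp)).2
  have h2 := (Finset.mem_filter.mp (Finset.mem_coe.mp hq)).2
  exact Prod.ext (h1.trans h2.symm) hpq

/-- The Fourier coefficients of a composition, for a general inner function. -/
theorem fourier_comp_general (h : (ι → ℤˣ) → ℤˣ) (g : (κ → ℤˣ) → ℤˣ) (U : Finset (ι × κ)) :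
    fourier (comp h g) U = ∑ S : Finset ι, fourier h S *
      ∏ j, (if j ∈ S then fourier g (fiber U j) else if fiber U j = ∅ then 1 else 0) := by
  have hN : (2 : ℝ) ^ Fintype.card κ ≠ 0 := by positivity
  have hblock : ∀ (S : Finset ι) (j : ι),
      ∑ w : κ → ℤˣ, (if j ∈ S then ((g w : ℤ) : ℝ) else 1) *
          ∏ i ∈ fiber U j, ((w i : ℤ) : ℝ) =
        2 ^ Fintype.card κ *
          (if j ∈ S then fourier g (fiber U j) else if fiber U j = ∅ then 1 else 0) := by
    intro S j
    by_cases hj : j ∈ S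
    · simp only [hj, if_true]
      unfold fourier
      field_simp
    · simp only [hj, if_false, one_mul]
      rw [sum_chi]
      split_ifs <;> simp
  have hsum : ∑ x : ι × κ → ℤˣ, ((comp h g x : ℤ) : ℝ) * ∏ p ∈ U, ((x p : ℤ) : ℝ) =
      ∑ S : Finset ι, fourier h S * ∏ j, (2 ^ Fintype.card κ *
        (if j ∈ S then fourier g (fiber U j) else if fiber U j = ∅ then 1 else 0)) := by
    rw [Fintype.sum_equiv (Equiv.curry ι κ ℤˣ)
      (fun x : ι × κ → ℤˣ => ((comp h g x : ℤ) : ℝ) * ∏ p ∈ U, ((x p : ℤ) : ℝ))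
      (fun X : ι → κ → ℤˣ => ((h (fun j => g (X j)) : ℤ) : ℝ) *
        ∏ j, ∏ i ∈ fiber U j, ((X j i : ℤ) : ℝ))
      (fun x => by
        rw [← prod_fiber U (fun j i => (((Equiv.curry ι κ ℤˣ) x j i : ℤ) : ℝ))]
        rfl)]
    have hexp : ∀ X : ι → κ → ℤˣ,
        ((h (fun j => g (X j)) : ℤ) : ℝ) * ∏ j, ∏ i ∈ fiber U j, ((X j i : ℤ) : ℝ) =
        ∑ S : Finset ι, fourier h S * ∏ j, ((if j ∈ S then ((g (X j) : ℤ) : ℝ) else 1) *
          ∏ i ∈ fiber U j, ((X j i : ℤ) : ℝ)) := by
      intro X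
      rw [fourier_inversion h, Finset.sum_mul]
      refine Finset.sum_congr rfl fun S _ => ?_
      rw [Finset.prod_mul_distrib, Finset.prod_ite_mem, Finset.univ_inter, mul_assoc]
    simp_rw [hexp]
    rw [Finset.sum_comm]
    refine Finset.sum_congr rfl fun S _ => ?_
    rw [← Finset.mul_sum]
    congr 1
    rw [← Fintype.piFinset_univ,
      ← Finset.prod_univ_sum (fun _ => (Finset.univ : Finset (κ → ℤˣ)))
        (fun j w => (if j ∈ S then ((g w : ℤ) : ℝ) else 1) *
          ∏ i ∈ fiber U j, ((w i : ℤ) : ℝ))]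
    exact Finset.prod_congr rfl fun j _ => hblock S j
  rw [show fourier (comp h g) U =
    (∑ x : ι × κ → ℤˣ, ((comp h g x : ℤ) : ℝ) * ∏ p ∈ U, ((x p : ℤ) : ℝ)) /
      2 ^ Fintype.card (ι × κ) from rfl, hsum, Finset.sum_div]
  refine Finset.sum_congr rfl fun S _ => ?_
  rw [Finset.prod_mul_distrib, Finset.prod_const, Finset.card_univ, Fintype.card_prod,
    pow_mul']
  have hN' : ((2 : ℝ) ^ Fintype.card κ) ^ Fintype.card ι ≠ 0 := pow_ne_zero _ hN
  field_simp

/-- The Fourier coefficients of a composition with a balanced inner function. -/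
theorem fourier_comp (h : (ι → ℤˣ) → ℤˣ) (g : (κ → ℤˣ) → ℤˣ) (hg : fourier g ∅ = 0)
    (U : Finset (ι × κ)) :
    fourier (comp h g) U =
      fourier h (U.image Prod.fst) * ∏ j ∈ U.image Prod.fst, fourier g (fiber U j) := by
  rw [fourier_comp_general, Finset.sum_eq_single (U.image Prod.fst)]
  · congr 1
    rw [← Finset.univ_inter (U.image Prod.fst), ← Finset.prod_ite_mem]
    refine Finset.prod_congr rfl fun j _ => ?_
    by_cases hj : j ∈ U.image Prod.fst
    · simp [hj]
    · have := (fiber_eq_empty_iff U j).mpr hj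
      simp [hj, this]
  · intro S _ hS
    obtain ⟨j, hj⟩ : ∃ j, ¬ (j ∈ S ↔ j ∈ U.image Prod.fst) := by
      by_contra hcon
      push Not at hcon
      exact hS (Finset.ext hcon)
    apply mul_eq_zero_of_right
    apply Finset.prod_eq_zero (Finset.mem_univ j)
    by_cases hjS : j ∈ S
    · have hjJ : j ∉ U.image Prod.fst := fun hJ => hj ⟨fun _ => hJ, fun _ => hjS⟩
      have := (fiber_eq_empty_iff U j).mpr hjJ
      simp [hjS, this, hg]
    · have hjJ : j ∈ U.image Prod.fst := by
        by_contra hJ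
        exact hj ⟨fun h' => absurd h' hjS, fun h' => absurd h' hJ⟩
      have : fiber U j ≠ ∅ := fun he => (fiber_eq_empty_iff U j).mp he hjJ
      simp [hjS, this]
  · intro hne
    exact absurd (Finset.mem_univ _) hne

theorem fourier_comp_singleton (h : (ι → ℤˣ) → ℤˣ) (g : (κ → ℤˣ) → ℤˣ)
    (hg : fourier g ∅ = 0) (j : ι) (i : κ) :
    fourier (comp h g) {(j, i)} = fourier h {j} * fourier g {i} := by
  rw [fourier_comp h g hg, Finset.image_singleton, Finset.prod_singleton]
  have : fiber ({(j, i)} : Finset (ι × κ)) j = {i} := by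
    unfold fiber
    rw [Finset.filter_singleton]
    simp
  rw [this]

theorem fourier_comp_empty (h : (ι → ℤˣ) → ℤˣ) (g : (κ → ℤˣ) → ℤˣ)
    (hg : fourier g ∅ = 0) :
    fourier (comp h g) ∅ = fourier h ∅ := by
  rw [fourier_comp h g hg]
  simp

theorem levelOne_comp (h : (ι → ℤˣ) → ℤˣ) (g : (κ → ℤˣ) → ℤˣ) (hg : fourier g ∅ = 0) :
    ∑ p : ι × κ, fourier (comp h g) {p} = (∑ j, fourier h {j}) * ∑ i, fourier g {i} := by
  rw [Fintype.sum_prod_type, Finset.sum_mul_sum]
  refine Finset.sum_congr rfl fun j _ => Finset.sum_congr rfl fun i _ => ?_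
  exact fourier_comp_singleton h g hg j i

theorem degree_comp_le (h : (ι → ℤˣ) → ℤˣ) (g : (κ → ℤˣ) → ℤˣ) (hg : fourier g ∅ = 0) :
    degree (comp h g) ≤ degree h * degree g := by
  apply degree_le_of
  intro U hU
  rw [fourier_comp h g hg] at hU
  have h1 : fourier h (U.image Prod.fst) ≠ 0 := left_ne_zero_of_mul hU
  have h2 : ∀ j ∈ U.image Prod.fst, fourier g (fiber U j) ≠ 0 := by
    intro j hj
    exact (Finset.prod_ne_zero_iff.mp (right_ne_zero_of_mul hU)) j hj
  have hJ := card_le_degree h _ h1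
  rw [card_eq_sum_fiber]
  calc ∑ j ∈ U.image Prod.fst, (fiber U j).card
      ≤ ∑ _j ∈ U.image Prod.fst, degree g :=
        Finset.sum_le_sum fun j hj => card_le_degree g _ (h2 j hj)
    _ = (U.image Prod.fst).card * degree g := by rw [Finset.sum_const, smul_eq_mul]
    _ ≤ degree h * degree g := Nat.mul_le_mul_right _ hJ

end Vale.Agent.Lib.P047
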