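import Vale.Agent.Lib.P047.Twist
import Vale.Agent.Lib.P047.Comp

namespace Vale.Agent.Lib.P047

open Finset

set_option linter.unusedSectionVars false

section reindex

variable {ι κ : Type*} [Fintype ι] [DecidableEq ι] [Fintype κ] [DecidableEq κ]

/-- Renaming the variables along an equivalence `e : ι ≃ κ`. -/
def reindex (e : ι ≃ κ) (f : (κ → ℤˣ) → ℤˣ) : (ι → ℤˣ) → ℤˣ :=
  fun x => f (fun k => x (e.symm k))

theorem fourier_reindex (e : ι ≃ κ) (f : (κ → ℤˣ) → ℤˣ) (S : Finset ι) :
    fourier (reindex e f) S = fourier f (S.map e.toEmbedding) := by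
  unfold fourier
  rw [Fintype.card_congr e]
  congr 1
  refine Fintype.sum_equiv (Equiv.arrowCongr e (Equiv.refl ℤˣ)) _ _ (fun x => ?_)
  have hx : (Equiv.arrowCongr e (Equiv.refl ℤˣ)) x = fun k => x (e.symm k) := rfl
  rw [Finset.prod_map, hx]
  simp [reindex]

theorem degree_reindex_le (e : ι ≃ κ) (f : (κ → ℤˣ) → ℤˣ) :
    degree (reindex e f) ≤ degree f := by
  apply degree_le_of
  intro S hS
  rw [fourier_reindex] at hS
  have := card_le_degree f _ hS
  rwa [Finset.card_map] at this

theorem levelOne_reindex (e : ι ≃ κ) (f : (κ → ℤˣ) → ℤˣ) :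
    ∑ i, fourier (reindex e f) {i} = ∑ k, fourier f {k} := by
  simp_rw [fourier_reindex, Finset.map_singleton]
  exact Equiv.sum_comp e (fun k => fourier f {k})

theorem fourier_reindex_empty (e : ι ≃ κ) (f : (κ → ℤˣ) → ℤˣ) :
    fourier (reindex e f) ∅ = fourier f ∅ := by
  rw [fourier_reindex, Finset.map_empty]

end reindex

section power

variable {κ : Type*} [Fintype κ] [DecidableEq κ]

/-- Tensor powers of a balanced function: level-one sums multiply, degrees at most multiply. -/
theorem exists_power (g : (κ → ℤˣ) → ℤˣ) (hg : fourier g ∅ = 0) (k : ℕ) :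
    ∃ (m : ℕ) (G : (Fin m → ℤˣ) → ℤˣ),
      ∑ i, fourier G {i} = (∑ i, fourier g {i}) ^ (k + 1) ∧
        degree G ≤ degree g ^ (k + 1) ∧ fourier G ∅ = 0 := by
  induction k with
  | zero =>
    refine ⟨Fintype.card κ, reindex (Fintype.equivFin κ).symm g, ?_, ?_, ?_⟩
    · rw [levelOne_reindex]; simp
    · simpa using degree_reindex_le (Fintype.equivFin κ).symm g
    · rw [fourier_reindex_empty, hg]
  | succ k ih =>
    obtain ⟨m, G, hL, hD, h0⟩ := ih
    refine ⟨Fintype.card (Fin m × κ),
      reindex (Fintype.equivFin (Fin m × κ)).symm (comp G g), ?_, ?_, ?_⟩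
    · rw [levelOne_reindex, levelOne_comp G g hg, hL, ← pow_succ]
    · calc degree (reindex (Fintype.equivFin (Fin m × κ)).symm (comp G g))
          ≤ degree (comp G g) := degree_reindex_le _ _
        _ ≤ degree G * degree g := degree_comp_le G g hg
        _ ≤ degree g ^ (k + 1) * degree g := Nat.mul_le_mul_right _ hD
        _ = degree g ^ (k + 1 + 1) := (pow_succ _ _).symm
    · rw [fourier_reindex_empty, fourier_comp_empty G g hg, h0]

end power

section oddify

variable {ι : Type*} [Fintype ι] [DecidableEq ι]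

theorem eraseNone_singleton_none : ({none} : Finset (Option ι)).eraseNone = ∅ := by
  ext x; simp

theorem eraseNone_singleton_some (i : ι) : ({some i} : Finset (Option ι)).eraseNone = {i} := by
  ext x; simp [eq_comm]

theorem sign_mul_eq_abs (a : ℝ) :
    (((if 0 ≤ a then (1 : ℤˣ) else -1 : ℤˣ) : ℤ) : ℝ) * a = |a| := by
  split_ifs with h
  · simp [abs_of_nonneg h]
  · push Not at h
    simp [abs_of_neg h]

/-- Every Boolean function `f` has an odd companion `g` in one more variable with
`ĝ(∅) = 0`, level-one sum `∑_i |f̂({i})| + |f̂(∅)|` and degree at most `deg f` rounded up to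
an odd number. -/
theorem exists_twist (f : (ι → ℤˣ) → ℤˣ) :
    ∃ g : (Option ι → ℤˣ) → ℤˣ, fourier g ∅ = 0 ∧
      ∑ a, fourier g {a} = ∑ i, |fourier f {i}| + |fourier f ∅| ∧
      degree g ≤ (if Odd (degree f) then degree f else degree f + 1) := by
  refine ⟨twist f (fun i => if 0 ≤ fourier f {i} then 1 else -1)
    (if 0 ≤ fourier f ∅ then 1 else -1), ?_, ?_, ?_⟩
  · rw [fourier_twist]
    simp
  · rw [Fintype.sum_option, add_comm]
    congr 1
    · refine Finset.sum_congr rfl fun i _ => ?_
      rw [fourier_twist, Finset.card_singleton, if_pos odd_one, eraseNone_singleton_some,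
        Finset.card_singleton, Finset.prod_singleton]
      have h1 : ((((if 0 ≤ fourier f ∅ then (1 : ℤˣ) else -1 : ℤˣ) : ℤ) : ℝ)) ^ (1 + 1) = 1 := by
        rw [show (1 : ℕ) + 1 = 2 from rfl]; exact unit_cast_sq _
      rw [h1, one_mul]
      exact sign_mul_eq_abs _
    · rw [fourier_twist, Finset.card_singleton, if_pos odd_one, eraseNone_singleton_none,
        Finset.card_empty, Finset.prod_empty, mul_one, add_zero, pow_one]
      exact sign_mul_eq_abs _
  · apply degree_le_of
    intro T hT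
    rw [fourier_twist] at hT
    have hodd : Odd T.card := by
      by_contra hno
      rw [if_neg hno] at hT
      exact hT rfl
    rw [if_pos hodd] at hT
    have hf : fourier f T.eraseNone ≠ 0 := right_ne_zero_of_mul hT
    have hle := card_le_degree f _ hf
    by_cases hn : none ∈ T
    · have hc := Finset.card_eraseNone_of_mem hn
      have hpos : 0 < T.card := Finset.card_pos.mpr ⟨none, hn⟩
      split_ifs with hd
      · have hne : T.eraseNone.card ≠ degree f := by
          intro heq
          have : Odd (T.card - 1) := by rw [← hc, heq]; exact hd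
          rcases hodd with ⟨a, ha⟩
          rcases this with ⟨b, hb⟩
          omega
        omega
      · omega
    · have hc := Finset.card_eraseNone_of_not_mem hn
      split_ifs with hd <;> omega

end oddify

section main

/-- Amplification: the weak form of the square-root bound self-improves. -/
theorem amplify
    (hweak : ∃ C : ℝ, ∀ (n : ℕ) (f : (Fin n → ℤˣ) → ℤˣ),
      ∑ i, fourier f {i} ≤ C * Real.sqrt (degree f))
    {ι : Type*} [Fintype ι] [DecidableEq ι] (f : (ι → ℤˣ) → ℤˣ) :
    ∑ i, |fourier f {i}| + |fourier f ∅| ≤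
      Real.sqrt ((if Odd (degree f) then degree f else degree f + 1 : ℕ) : ℝ) := by
  obtain ⟨C, hC⟩ := hweak
  obtain ⟨g, hg0, hgL, hgD⟩ := exists_twist f
  set lam := ∑ i, |fourier f {i}| + |fourier f ∅| with hlam
  set D : ℕ := if Odd (degree f) then degree f else degree f + 1 with hDdef
  have hD1 : 1 ≤ D := by
    rw [hDdef]
    split_ifs with h
    · exact h.pos
    · omega
  have hDpos : (0 : ℝ) < D := by exact_mod_cast hD1
  by_contra hcon
  push Not at hcon
  have hlam_pos : 0 < lam := lt_of_le_of_lt (Real.sqrt_nonneg _) hcon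
  have hD_lt : (D : ℝ) < lam ^ 2 := (Real.sqrt_lt' hlam_pos).mp hcon
  have hr : 1 < lam ^ 2 / D := by
    rw [one_lt_div hDpos]; exact hD_lt
  obtain ⟨k, hk⟩ := pow_unbounded_of_one_lt (C ^ 2) hr
  obtain ⟨m, G, hGL, hGD, -⟩ := exists_power g hg0 k
  have h1 := hC m G
  rw [hGL, hgL] at h1
  have h2 : (degree G : ℝ) ≤ (D : ℝ) ^ (k + 1) := by
    have : degree G ≤ D ^ (k + 1) := hGD.trans (Nat.pow_le_pow_left hgD _)
    exact_mod_cast this
  have h3 : lam ^ (k + 1) ≤ |C| * Real.sqrt ((D : ℝ) ^ (k + 1)) := by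
    calc lam ^ (k + 1) ≤ C * Real.sqrt (degree G) := h1
      _ ≤ |C| * Real.sqrt (degree G) :=
          mul_le_mul_of_nonneg_right (le_abs_self C) (Real.sqrt_nonneg _)
      _ ≤ |C| * Real.sqrt ((D : ℝ) ^ (k + 1)) :=
          mul_le_mul_of_nonneg_left (Real.sqrt_le_sqrt h2) (abs_nonneg C)
  have h4 : (lam ^ (k + 1)) ^ 2 ≤ C ^ 2 * (D : ℝ) ^ (k + 1) := by
    have hpos : 0 ≤ lam ^ (k + 1) := by positivity
    calc (lam ^ (k + 1)) ^ 2 ≤ (|C| * Real.sqrt ((D : ℝ) ^ (k + 1))) ^ 2 :=
          pow_le_pow_left₀ hpos h3 2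
      _ = C ^ 2 * (D : ℝ) ^ (k + 1) := by
          rw [mul_pow, sq_abs, Real.sq_sqrt (by positivity)]
  have h5 : (lam ^ 2 / D) ^ (k + 1) ≤ C ^ 2 := by
    rw [div_pow, div_le_iff₀ (by positivity)]
    calc (lam ^ 2) ^ (k + 1) = (lam ^ (k + 1)) ^ 2 := by
          rw [← pow_mul, ← pow_mul, mul_comm]
      _ ≤ _ := h4
  have h6 : (lam ^ 2 / D) ^ k ≤ (lam ^ 2 / D) ^ (k + 1) :=
    pow_le_pow_right₀ hr.le (Nat.le_succ k)
  linarith

end main

end Vale.Agent.Lib.P047
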