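import Vale.Agent.Lib.P047.Amplify

namespace Vale.Agent.Lib.P047

open Finset Filter Topology

set_option linter.unusedSectionVars false

theorem exists_eps_rpow_lt (D : ℝ) (hD : 0 < D) (lam : ℝ) (h : D ^ (1 / 2 : ℝ) < lam) :
    ∃ ε : ℝ, 0 < ε ∧ D ^ (1 / 2 + ε) < lam := by
  have hcont : ContinuousAt (fun e : ℝ => D ^ e) (1 / 2) :=
    (Real.continuous_const_rpow hD.ne').continuousAt
  have hev : ∀ᶠ e in 𝓝 (1 / 2 : ℝ), D ^ e < lam := hcont.eventually_lt continuousAt_const h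
  obtain ⟨δ, hδ, hδ'⟩ := Metric.eventually_nhds_iff.mp hev
  refine ⟨δ / 2, by positivity, hδ' ?_⟩
  rw [Real.dist_eq]
  have : (1 / 2 + δ / 2 - 1 / 2 : ℝ) = δ / 2 := by ring
  rw [this, abs_of_pos (by positivity)]
  linarith

/-- Amplification from any bound with exponent `1/2 + ε` (for every `ε > 0`). -/
theorem amplify_eps
    (hweak : ∀ ε : ℝ, 0 < ε → ∃ C : ℝ, ∀ (n : ℕ) (f : (Fin n → ℤˣ) → ℤˣ),
      ∑ i, fourier f {i} ≤ C * (degree f : ℝ) ^ (1 / 2 + ε))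
    {ι : Type*} [Fintype ι] [DecidableEq ι] (f : (ι → ℤˣ) → ℤˣ) :
    ∑ i, |fourier f {i}| + |fourier f ∅| ≤
      Real.sqrt ((if Odd (degree f) then degree f else degree f + 1 : ℕ) : ℝ) := by
  obtain ⟨g, hg0, hgL, hgD⟩ := exists_twist f
  set lam := ∑ i, |fourier f {i}| + |fourier f ∅| with hlam
  set D : ℕ := if Odd (degree f) then degree f else degree f + 1 with hDdef
  have hD1 : 1 ≤ D := by
    rw [hDdef]
    split_ifs with h
    · exact h.pos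
    · omega
  have hD1' : (1 : ℝ) ≤ D := by exact_mod_cast hD1
  have hDpos : (0 : ℝ) < D := by linarith
  by_contra hcon
  push Not at hcon
  rw [Real.sqrt_eq_rpow] at hcon
  obtain ⟨ε, hε, hρ⟩ := exists_eps_rpow_lt (D : ℝ) hDpos lam hcon
  obtain ⟨C, hC⟩ := hweak ε hε
  set ρ := (D : ℝ) ^ (1 / 2 + ε) with hρdef
  have hρ1 : 1 ≤ ρ := Real.one_le_rpow hD1' (by positivity)
  have hρpos : 0 < ρ := by linarith
  have hr : 1 < lam / ρ := by
    rw [one_lt_div hρpos]; exact hρ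
  obtain ⟨k, hk⟩ := pow_unbounded_of_one_lt |C| hr
  obtain ⟨m, G, hGL, hGD, -⟩ := exists_power g hg0 k
  have h1 := hC m G
  rw [hGL, hgL] at h1
  have h2 : (degree G : ℝ) ≤ (D : ℝ) ^ (k + 1) := by
    have : degree G ≤ D ^ (k + 1) := hGD.trans (Nat.pow_le_pow_left hgD _)
    exact_mod_cast this
  have h2' : (degree G : ℝ) ^ (1 / 2 + ε) ≤ ρ ^ (k + 1) := by
    calc (degree G : ℝ) ^ (1 / 2 + ε) ≤ ((D : ℝ) ^ (k + 1)) ^ (1 / 2 + ε) :=
          Real.rpow_le_rpow (by positivity) h2 (by positivity)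
      _ = ρ ^ (k + 1) := by
          rw [hρdef, ← Real.rpow_natCast_mul hDpos.le, ← Real.rpow_mul_natCast hDpos.le, mul_comm]
  have h3 : lam ^ (k + 1) ≤ |C| * ρ ^ (k + 1) := by
    calc lam ^ (k + 1) ≤ C * (degree G : ℝ) ^ (1 / 2 + ε) := h1
      _ ≤ |C| * (degree G : ℝ) ^ (1 / 2 + ε) :=
          mul_le_mul_of_nonneg_right (le_abs_self C) (by positivity)
      _ ≤ |C| * ρ ^ (k + 1) := mul_le_mul_of_nonneg_left h2' (abs_nonneg C)
  have h5 : (lam / ρ) ^ (k + 1) ≤ |C| := by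
    rw [div_pow, div_le_iff₀ (by positivity)]
    exact h3
  have h6 : (lam / ρ) ^ k ≤ (lam / ρ) ^ (k + 1) :=
    pow_le_pow_right₀ hr.le (Nat.le_succ k)
  linarith

end Vale.Agent.Lib.P047
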