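import Vale.Agent.Lib.P047.Defs

namespace Vale.Agent.Lib.P047

open Finset

set_option linter.unusedSectionVars false

section basic

variable {ι : Type*} [Fintype ι] [DecidableEq ι]

theorem unit_cast_mul_self (u : ℤˣ) : ((u : ℤ) : ℝ) * ((u : ℤ) : ℝ) = 1 := by
  rcases Int.units_eq_one_or u with h | h <;> simp [h]

theorem unit_cast_sq (u : ℤˣ) : ((u : ℤ) : ℝ) ^ 2 = 1 := by
  rw [sq]; exact unit_cast_mul_self u

theorem unit_cast_ne (u v : ℤˣ) (h : u ≠ v) : ((u : ℤ) : ℝ) * ((v : ℤ) : ℝ) = -1 := by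
  rcases Int.units_eq_one_or u with hu | hu <;> rcases Int.units_eq_one_or v with hv | hv <;>
    simp_all

theorem sum_units (φ : ℤˣ → ℝ) : ∑ u : ℤˣ, φ u = φ 1 + φ (-1) := by
  rw [UnitsInt.univ]
  rw [Finset.sum_insert (by decide), Finset.sum_singleton]

theorem card_le_degree (f : (ι → ℤˣ) → ℤˣ) (S : Finset ι) (h : fourier f S ≠ 0) :
    S.card ≤ degree f := by
  classical
  unfold degree
  exact Finset.le_sup (f := Finset.card) (by simp [h])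

theorem degree_le_of (f : (ι → ℤˣ) → ℤˣ) (d : ℕ)
    (h : ∀ S : Finset ι, fourier f S ≠ 0 → S.card ≤ d) : degree f ≤ d := by
  classical
  unfold degree
  apply Finset.sup_le
  intro S hS
  exact h S (by simpa using hS)

/-- orthogonality: `∑_S χ_S(x) χ_S(y) = 2^n [x = y]` -/
theorem sum_chi_mul_chi (x y : ι → ℤˣ) :
    ∑ S : Finset ι, (∏ i ∈ S, ((x i : ℤ) : ℝ)) * (∏ i ∈ S, ((y i : ℤ) : ℝ)) =
      if x = y then (2 : ℝ) ^ Fintype.card ι else 0 := by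
  have h1 : ∑ S : Finset ι, (∏ i ∈ S, ((x i : ℤ) : ℝ)) * (∏ i ∈ S, ((y i : ℤ) : ℝ)) =
      ∏ i, (1 + ((x i : ℤ) : ℝ) * ((y i : ℤ) : ℝ)) := by
    rw [Finset.prod_one_add, Finset.powerset_univ]
    refine Finset.sum_congr rfl fun S _ => ?_
    rw [Finset.prod_mul_distrib]
  rw [h1]
  split_ifs with hxy
  · subst hxy
    have : ∀ i, (1 + ((x i : ℤ) : ℝ) * ((x i : ℤ) : ℝ)) = 2 := by
      intro i; rw [unit_cast_mul_self]; norm_num
    simp [this]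
  · obtain ⟨i, hi⟩ : ∃ i, x i ≠ y i := by
      by_contra hcon
      push Not at hcon
      exact hxy (funext hcon)
    apply Finset.prod_eq_zero (Finset.mem_univ i)
    rw [unit_cast_ne _ _ hi]; norm_num

/-- Fourier inversion. -/
theorem fourier_inversion (h : (ι → ℤˣ) → ℤˣ) (y : ι → ℤˣ) :
    ((h y : ℤ) : ℝ) = ∑ S : Finset ι, fourier h S * ∏ j ∈ S, ((y j : ℤ) : ℝ) := by
  unfold fourier
  have h2 : (2 : ℝ) ^ Fintype.card ι ≠ 0 := by positivity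
  have key : ∀ S : Finset ι,
      (∑ x : ι → ℤˣ, ((h x : ℤ) : ℝ) * ∏ i ∈ S, ((x i : ℤ) : ℝ)) / 2 ^ Fintype.card ι *
        ∏ j ∈ S, ((y j : ℤ) : ℝ) =
      ∑ x : ι → ℤˣ, ((h x : ℤ) : ℝ) *
        ((∏ i ∈ S, ((x i : ℤ) : ℝ)) * ∏ j ∈ S, ((y j : ℤ) : ℝ)) / 2 ^ Fintype.card ι := by
    intro S
    rw [Finset.sum_div, Finset.sum_mul]
    exact Finset.sum_congr rfl fun x _ => by ring
  simp_rw [key]
  rw [Finset.sum_comm]
  simp_rw [← Finset.sum_div, ← Finset.mul_sum, sum_chi_mul_chi]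
  simp [h2]

/-- `∑_w χ_V(w) = 2^n [V = ∅]` -/
theorem sum_chi (V : Finset ι) :
    ∑ w : ι → ℤˣ, ∏ i ∈ V, ((w i : ℤ) : ℝ) = if V = ∅ then (2 : ℝ) ^ Fintype.card ι else 0 := by
  have h1 : ∀ w : ι → ℤˣ, ∏ i ∈ V, ((w i : ℤ) : ℝ) =
      ∏ i, (if i ∈ V then ((w i : ℤ) : ℝ) else 1) := by
    intro w
    rw [Finset.prod_ite_mem, Finset.univ_inter]
  simp_rw [h1]
  rw [← Fintype.piFinset_univ, ← Finset.prod_univ_sum (fun _ => (Finset.univ : Finset ℤˣ))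
    (fun i u => if i ∈ V then ((u : ℤ) : ℝ) else 1)]
  split_ifs with hV
  · subst hV
    simp
  · obtain ⟨i, hi⟩ := Finset.nonempty_iff_ne_empty.mpr hV
    apply Finset.prod_eq_zero (Finset.mem_univ i)
    rw [sum_units]
    simp [hi]

end basic

end Vale.Agent.Lib.P047
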