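import Vale.Agent.Lib.P047.Influence

namespace Vale.Agent.Lib.P047

open Finset

set_option linter.unusedSectionVars false

variable {ι : Type*} [Fintype ι] [DecidableEq ι]

/-- The point of the cube which is `-1` exactly on `U`. -/
def pt (U : Finset ι) : ι → ℤˣ := fun i => if i ∈ U then -1 else 1

theorem chi_pt (R U : Finset ι) :
    ∏ i ∈ R, ((pt U i : ℤ) : ℝ) = ∏ i ∈ U, (if i ∈ R then (-1 : ℝ) else 1) := by
  have h1 : ∀ i, ((pt U i : ℤ) : ℝ) = if i ∈ U then (-1 : ℝ) else 1 := by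
    intro i; unfold pt; split_ifs <;> simp
  simp_rw [h1]
  rw [Finset.prod_ite_mem, Finset.prod_ite_mem, Finset.inter_comm]

/-- `B(T) = ∑_{R ⊇ T} f̂(R)`. -/
noncomputable def upSum (f : (ι → ℤˣ) → ℤˣ) (T : Finset ι) : ℝ :=
  ∑ R ∈ univ.filter (fun R : Finset ι => T ⊆ R), fourier f R

theorem sum_pt (f : (ι → ℤˣ) → ℤˣ) (T : Finset ι) :
    ∑ U ∈ T.powerset, (-1 : ℝ) ^ U.card * ((f (pt U) : ℤ) : ℝ) = 2 ^ T.card * upSum f T := by
  have h1 : ∀ U : Finset ι, (-1 : ℝ) ^ U.card * ((f (pt U) : ℤ) : ℝ) =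
      ∑ R : Finset ι, fourier f R * ∏ i ∈ U, (if i ∈ R then (1 : ℝ) else -1) := by
    intro U
    rw [fourier_inversion f, Finset.mul_sum]
    refine Finset.sum_congr rfl fun R _ => ?_
    rw [chi_pt, ← Finset.prod_const, mul_left_comm, ← Finset.prod_mul_distrib]
    congr 1
    refine Finset.prod_congr rfl fun i _ => ?_
    split_ifs <;> norm_num
  simp_rw [h1]
  rw [Finset.sum_comm]
  unfold upSum
  rw [Finset.mul_sum, Finset.sum_filter]
  refine Finset.sum_congr rfl fun R _ => ?_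
  rw [← Finset.mul_sum, ← Finset.prod_one_add]
  have h2 : ∏ i ∈ T, (1 + (if i ∈ R then (1 : ℝ) else -1)) = if T ⊆ R then 2 ^ T.card else 0 := by
    split_ifs with hTR
    · rw [← Finset.prod_const]
      refine Finset.prod_congr rfl fun i hi => ?_
      rw [if_pos (hTR hi)]; norm_num
    · obtain ⟨i, hiT, hiR⟩ := Finset.not_subset.mp hTR
      apply Finset.prod_eq_zero hiT
      rw [if_neg hiR]; norm_num
  rw [h2]
  split_ifs <;> ring

/-- The integer alternating sum of the values of `f` over the subcube below `T`. -/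
def altSum (f : (ι → ℤˣ) → ℤˣ) (T : Finset ι) : ℤ :=
  ∑ U ∈ T.powerset, (-1 : ℤ) ^ U.card * (f (pt U) : ℤ)

theorem altSum_cast (f : (ι → ℤˣ) → ℤˣ) (T : Finset ι) :
    ((altSum f T : ℤ) : ℝ) = ∑ U ∈ T.powerset, (-1 : ℝ) ^ U.card * ((f (pt U) : ℤ) : ℝ) := by
  unfold altSum
  push_cast
  rfl

theorem two_dvd_altSum (f : (ι → ℤˣ) → ℤˣ) (T : Finset ι) (hT : T.Nonempty) :
    (2 : ℤ) ∣ altSum f T := by
  have key : ((altSum f T : ℤ) : ZMod 2) = 0 := by
    unfold altSum
    push_cast
    have h1 : ∀ U : Finset ι, ((-1 : ZMod 2)) ^ U.card * ((f (pt U) : ℤ) : ZMod 2) = 1 := by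
      intro U
      have hneg : (-1 : ZMod 2) = 1 := by decide
      rw [hneg, one_pow, one_mul]
      rcases Int.units_eq_one_or (f (pt U)) with h | h <;> rw [h] <;> simp [hneg]
    simp_rw [h1]
    rw [Finset.sum_const, Finset.card_powerset, nsmul_eq_mul, mul_one, Nat.cast_pow]
    have h2 : ((2 : ℕ) : ZMod 2) = 0 := by decide
    rw [h2, zero_pow (Finset.card_pos.mpr hT).ne']
  have := (ZMod.intCast_zmod_eq_zero_iff_dvd (altSum f T) 2).mp key
  exact_mod_cast this

/-- Granularity: the Fourier coefficients at nonempty sets of a Boolean function of degree at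
most `d ≥ 1` are integer multiples of `2^(1-d)`. -/
theorem fourier_mem_zmultiples (f : (ι → ℤˣ) → ℤˣ) (d : ℕ) (hd1 : 1 ≤ d) (hd : degree f ≤ d)
    (S : Finset ι) (hS : S.Nonempty) :
    fourier f S ∈ AddSubgroup.zmultiples ((1 : ℝ) / 2 ^ (d - 1)) := by
  have key : ∀ S : Finset ι, S.card ≤ Fintype.card ι → S.Nonempty →
      fourier f S ∈ AddSubgroup.zmultiples ((1 : ℝ) / 2 ^ (d - 1)) := by
    intro S
    refine Finset.strongDownwardInductionOn
      (p := fun S => S.Nonempty → fourier f S ∈ AddSubgroup.zmultiples ((1 : ℝ) / 2 ^ (d - 1)))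
      S ?_
    intro S ih _ hS
    by_cases hSd : d < S.card
    · have h0 : fourier f S = 0 := by
        by_contra hne
        have := (card_le_degree f S hne).trans hd
        omega
      rw [h0]; exact zero_mem _
    · push Not at hSd
      have hsplit : upSum f S =
          fourier f S + ∑ R ∈ univ.filter (fun R : Finset ι => S ⊂ R), fourier f R := by
        unfold upSum
        have hset : univ.filter (fun R : Finset ι => S ⊆ R) =
            insert S (univ.filter (fun R : Finset ι => S ⊂ R)) := by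
          ext R
          simp only [Finset.mem_filter, Finset.mem_univ, true_and, Finset.mem_insert]
          constructor
          · intro h
            rcases h.eq_or_ssubset with h1 | h1
            · left; exact h1.symm
            · right; exact h1
          · rintro (rfl | h)
            · exact Finset.Subset.refl _
            · exact h.subset
        rw [hset, Finset.sum_insert]
        simp
      have hsum := sum_pt f S
      obtain ⟨m, hm⟩ := two_dvd_altSum f S hS
      have hA : (2 : ℝ) ^ S.card * upSum f S = 2 * (m : ℝ) := by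
        rw [← hsum, ← altSum_cast, hm]; push_cast; ring
      have h2 : (2 : ℝ) ^ S.card ≠ 0 := by positivity
      have hfS : fourier f S = (m : ℝ) * 2 / 2 ^ S.card -
          ∑ R ∈ univ.filter (fun R : Finset ι => S ⊂ R), fourier f R := by
        have hup : upSum f S = (m : ℝ) * 2 / 2 ^ S.card := by
          rw [eq_div_iff h2]; linarith
        rw [hsplit] at hup
        linarith
      rw [hfS]
      apply sub_mem
      · rw [AddSubgroup.mem_zmultiples_iff]
        refine ⟨m * 2 ^ (d - S.card), ?_⟩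
        have hcard : 1 ≤ S.card := Finset.card_pos.mpr hS
        have e1 : (2 : ℝ) ^ (d - 1) = 2 ^ (d - S.card) * 2 ^ (S.card - 1) := by
          rw [← pow_add]; congr 1; omega
        have e2 : (2 : ℝ) ^ S.card = 2 * 2 ^ (S.card - 1) := by
          rw [← pow_succ']; congr 1; omega
        rw [zsmul_eq_mul, e1, e2]
        push_cast
        field_simp
      · apply sum_mem
        intro R hR
        have hSR : S ⊂ R := (Finset.mem_filter.mp hR).2
        exact ih (Finset.card_le_univ R) hSR (hS.mono hSR.subset)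
  exact key S (Finset.card_le_univ S) hS

theorem abs_fourier_ge (f : (ι → ℤˣ) → ℤˣ) (d : ℕ) (hd1 : 1 ≤ d) (hd : degree f ≤ d)
    (S : Finset ι) (hS : S.Nonempty) (hne : fourier f S ≠ 0) :
    1 / 2 ^ (d - 1) ≤ |fourier f S| := by
  obtain ⟨k, hk⟩ := AddSubgroup.mem_zmultiples_iff.mp (fourier_mem_zmultiples f d hd1 hd S hS)
  have hk0 : k ≠ 0 := by
    rintro rfl
    rw [zero_smul] at hk
    exact hne hk.symm
  have hpos : (0 : ℝ) < 1 / 2 ^ (d - 1) := by positivity
  rw [← hk, zsmul_eq_mul, abs_mul, abs_of_pos hpos]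
  have h1 : (1 : ℝ) ≤ |(k : ℝ)| := by
    have : (1 : ℤ) ≤ |k| := Int.one_le_abs hk0
    exact_mod_cast this
  calc 1 / 2 ^ (d - 1) = 1 * (1 / 2 ^ (d - 1)) := (one_mul _).symm
    _ ≤ |(k : ℝ)| * (1 / 2 ^ (d - 1)) := mul_le_mul_of_nonneg_right h1 hpos.le

/-- The improved upper bound `∑_i |f̂({i})| ≤ d / (1 + (d - 1) 2^(1 - d))`. -/
theorem sum_abs_le_granular (f : (ι → ℤˣ) → ℤˣ) (d : ℕ) (hd1 : 1 ≤ d) (hd : degree f ≤ d) :
    ∑ i, |fourier f {i}| ≤ d / (1 + ((d : ℝ) - 1) / 2 ^ (d - 1)) := by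
  have hd1' : (1 : ℝ) ≤ d := by exact_mod_cast hd1
  have hpow : (0 : ℝ) < 2 ^ (d - 1) := by positivity
  have h1 := sum_abs_le_sub f d hd1 hd
  have h2 : (∑ i, |fourier f {i}|) / 2 ^ (d - 1) ≤ ∑ i, fourier f {i} ^ 2 := by
    rw [Finset.sum_div]
    refine Finset.sum_le_sum fun i _ => ?_
    by_cases h0 : fourier f {i} = 0
    · simp [h0]
    · have hge := abs_fourier_ge f d hd1 hd {i} (Finset.singleton_nonempty i) h0
      rw [← sq_abs]
      have habs : 0 ≤ |fourier f {i}| := abs_nonneg _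
      calc |fourier f {i}| / 2 ^ (d - 1) = |fourier f {i}| * (1 / 2 ^ (d - 1)) := by ring
        _ ≤ |fourier f {i}| * |fourier f {i}| := mul_le_mul_of_nonneg_left hge habs
        _ = |fourier f {i}| ^ 2 := (sq _).symm
  set L := ∑ i, |fourier f {i}| with hL
  have h3 : L ≤ d - ((d : ℝ) - 1) * (L / 2 ^ (d - 1)) := by
    have : ((d : ℝ) - 1) * (L / 2 ^ (d - 1)) ≤ ((d : ℝ) - 1) * ∑ i, fourier f {i} ^ 2 :=
      mul_le_mul_of_nonneg_left h2 (by linarith)
    linarith
  have hden : (0 : ℝ) < 1 + ((d : ℝ) - 1) / 2 ^ (d - 1) := by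
    have : 0 ≤ ((d : ℝ) - 1) / 2 ^ (d - 1) := div_nonneg (by linarith) hpow.le
    linarith
  rw [le_div_iff₀ hden]
  have e : L * (1 + ((d : ℝ) - 1) / 2 ^ (d - 1)) = L + ((d : ℝ) - 1) * (L / 2 ^ (d - 1)) := by ring
  rw [e]; linarith

end Vale.Agent.Lib.P047
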