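import Vale.Agent.Lib.P047.Basic

namespace Vale.Agent.Lib.P047

/-- The sum of `F` over the cube `{-1,1}^n`, by recursion on `n`. -/
def cubeSum : (n : ℕ) → ((Fin n → ℤˣ) → ℤ) → ℤ
  | 0, F => F Fin.elim0
  | n + 1, F => cubeSum n (fun y => F (Fin.cons 1 y)) + cubeSum n (fun y => F (Fin.cons (-1) y))

theorem sum_eq_cubeSum : ∀ (n : ℕ) (F : (Fin n → ℤˣ) → ℤ), ∑ x, F x = cubeSum n F
  | 0, F => by
      rw [cubeSum]
      rw [Fintype.sum_eq_single (Fin.elim0 : Fin 0 → ℤˣ)]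
      intro x hx
      exact absurd (Subsingleton.elim x _) hx
  | n + 1, F => by
      rw [cubeSum, ← sum_eq_cubeSum n, ← sum_eq_cubeSum n]
      rw [← (Fin.consEquiv (fun _ : Fin (n + 1) => ℤˣ)).sum_comp, Fintype.sum_prod_type]
      rw [UnitsInt.univ, Finset.sum_insert (by decide), Finset.sum_singleton]
      rfl

end Vale.Agent.Lib.P047
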