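import Mathlib

/-!
# P047: Fourier analysis on the cube `{-1,1}^ι`

The cube is `ι → ℤˣ` (the units of `ℤ` are `1` and `-1`), a Boolean function is a map
`f : (ι → ℤˣ) → ℤˣ`.
-/

namespace Vale.Agent.Lib.P047

variable {ι : Type*} [Fintype ι] [DecidableEq ι]

/-- The Fourier coefficient `f̂(S) = E[f(X) ∏_{i ∈ S} X_i]`, with `X` uniform on `{-1,1}^ι`. -/
noncomputable def fourier (f : (ι → ℤˣ) → ℤˣ) (S : Finset ι) : ℝ :=
  (∑ x : ι → ℤˣ, ((f x : ℤ) : ℝ) * ∏ i ∈ S, ((x i : ℤ) : ℝ)) / 2 ^ Fintype.card ι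

open Classical in
/-- The degree `deg f = max {|S| : f̂(S) ≠ 0}`. -/
noncomputable def degree (f : (ι → ℤˣ) → ℤˣ) : ℕ :=
  (Finset.univ.filter fun S : Finset ι => fourier f S ≠ 0).sup Finset.card

end Vale.Agent.Lib.P047
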