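import Vale.Agent.Lib.P047.Defs

namespace Vale.Agent.Lib.P047

variable {ι : Type*} [Fintype ι] [DecidableEq ι]

/-- The sensitivity of `f` at the point `x`: the number of coordinates `i` such that negating
the `i`-th coordinate of `x` changes the value of `f`. -/
def sens (f : (ι → ℤˣ) → ℤˣ) (x : ι → ℤˣ) : ℕ :=
  (Finset.univ.filter fun i : ι => f (Function.update x i (-(x i))) ≠ f x).card

end Vale.Agent.Lib.P047
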