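import Vale.Agent.Lib.P047.Granular
import Vale.Agent.Lib.P047.SensDefs

namespace Vale.Agent.Lib.P047

open Finset

set_option linter.unusedSectionVars false

variable {ι : Type*} [Fintype ι] [DecidableEq ι]

theorem update_neg_eq_flip (i : ι) (x : ι → ℤˣ) : Function.update x i (-(x i)) = flip i x := by
  funext j
  unfold flip
  by_cases h : j = i
  · subst h; simp
  · simp [h]

theorem chi_flip (i : ι) (x : ι → ℤˣ) (S : Finset ι) :
    ∏ j ∈ S, ((flip i x j : ℤ) : ℝ) = (if i ∈ S then -1 else 1) * ∏ j ∈ S, ((x j : ℤ) : ℝ) := by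
  have hj : ∀ j, ((flip i x j : ℤ) : ℝ) = (if j = i then (-1 : ℝ) else 1) * ((x j : ℤ) : ℝ) := by
    intro j; unfold flip; split_ifs <;> simp
  simp_rw [hj]
  rw [Finset.prod_mul_distrib, Finset.prod_ite_eq']

theorem chi_neg (x : ι → ℤˣ) (S : Finset ι) :
    ∏ j ∈ S, (((-x) j : ℤ) : ℝ) = (-1) ^ S.card * ∏ j ∈ S, ((x j : ℤ) : ℝ) := by
  have hj : ∀ j, (((-x) j : ℤ) : ℝ) = -((x j : ℤ) : ℝ) := by
    intro j; simp
  simp_rw [hj]
  rw [Finset.prod_neg]

theorem abs_chi (x : ι → ℤˣ) (S : Finset ι) : |∏ j ∈ S, ((x j : ℤ) : ℝ)| = 1 := by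
  rw [Finset.abs_prod]
  apply Finset.prod_eq_one
  intro j _
  rcases Int.units_eq_one_or (x j) with h | h <;> simp [h]

theorem unit_sub_half (u v : ℤˣ) :
    (((u : ℤ) : ℝ) - ((v : ℤ) : ℝ)) / 2 = ((u : ℤ) : ℝ) * (if v ≠ u then 1 else 0) := by
  rcases Int.units_eq_one_or u with rfl | rfl <;> rcases Int.units_eq_one_or v with rfl | rfl <;>
    norm_num

/-- The Laplacian identity `∑_S |S| f̂(S) χ_S(x) = f(x) · sens(f, x)`. -/
theorem laplacian (f : (ι → ℤˣ) → ℤˣ) (x : ι → ℤˣ) :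
    ∑ S : Finset ι, (S.card : ℝ) * (fourier f S * ∏ j ∈ S, ((x j : ℤ) : ℝ)) =
      ((f x : ℤ) : ℝ) * (sens f x : ℝ) := by
  have h1 : ∀ i : ι, (((f x : ℤ) : ℝ) - ((f (flip i x) : ℤ) : ℝ)) / 2 =
      ∑ S : Finset ι, (if i ∈ S then fourier f S * ∏ j ∈ S, ((x j : ℤ) : ℝ) else 0) := by
    intro i
    rw [fourier_inversion f x, fourier_inversion f (flip i x), ← Finset.sum_sub_distrib,
      Finset.sum_div]
    refine Finset.sum_congr rfl fun S _ => ?_
    rw [chi_flip]
    split_ifs <;> ring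
  have h2 : ∑ i : ι, (((f x : ℤ) : ℝ) - ((f (flip i x) : ℤ) : ℝ)) / 2 =
      ((f x : ℤ) : ℝ) * (sens f x : ℝ) := by
    unfold sens
    rw [Finset.card_filter]
    push_cast
    rw [Finset.mul_sum]
    refine Finset.sum_congr rfl fun i _ => ?_
    rw [update_neg_eq_flip, unit_sub_half]
  rw [← h2]
  simp_rw [h1]
  rw [Finset.sum_comm]
  refine Finset.sum_congr rfl fun S _ => ?_
  rw [← Finset.sum_filter]
  simp

/-- The set of singletons. -/
def singles (ι : Type*) [Fintype ι] [DecidableEq ι] : Finset (Finset ι) :=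
  Finset.univ.image (fun i : ι => ({i} : Finset ι))

theorem sum_singles (φ : Finset ι → ℝ) :
    ∑ i : ι, φ {i} = ∑ S : Finset ι, (if S ∈ singles ι then φ S else 0) := by
  rw [Finset.sum_ite_mem, Finset.univ_inter]
  unfold singles
  rw [Finset.sum_image]
  intro i _ j _ hij
  exact Finset.singleton_injective hij

theorem card_of_not_singles (f : (ι → ℤˣ) → ℤˣ) (hd : degree f ≤ 4) (S : Finset ι)
    (hS : S ∉ singles ι) (h0 : fourier f S ≠ 0) :
    S.card = 0 ∨ S.card = 2 ∨ S.card = 3 ∨ S.card = 4 := by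
  have hle : S.card ≤ 4 := (card_le_degree f S h0).trans hd
  have hne : S.card ≠ 1 := by
    intro h1
    obtain ⟨i, rfl⟩ := Finset.card_eq_one.mp h1
    exact hS (Finset.mem_image.mpr ⟨i, Finset.mem_univ i, rfl⟩)
  omega

/-- The exact level-one formula for Boolean functions of degree at most four. -/
theorem level_one_formula (f : (ι → ℤˣ) → ℤˣ) (hd : degree f ≤ 4) (s : ι → ℤˣ) :
    4 * ∑ i, ((s i : ℤ) : ℝ) * fourier f {i} =
      3 * (((f s : ℤ) : ℝ) - ((f (-s) : ℤ) : ℝ)) -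
        (((f s : ℤ) : ℝ) * (sens f s : ℝ) - ((f (-s) : ℤ) : ℝ) * (sens f (-s) : ℝ)) := by
  rw [← laplacian f s, ← laplacian f (-s), fourier_inversion f s, fourier_inversion f (-s)]
  simp_rw [chi_neg]
  have hL : 4 * ∑ i, ((s i : ℤ) : ℝ) * fourier f {i} =
      ∑ S : Finset ι, (if S ∈ singles ι then
        4 * ((∏ j ∈ S, ((s j : ℤ) : ℝ)) * fourier f S) else 0) := by
    rw [Finset.mul_sum,
      ← sum_singles (fun S => 4 * ((∏ j ∈ S, ((s j : ℤ) : ℝ)) * fourier f S))]
    refine Finset.sum_congr rfl fun i _ => ?_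
    rw [Finset.prod_singleton]
  rw [hL, ← Finset.sum_sub_distrib, Finset.mul_sum, ← Finset.sum_sub_distrib,
    ← Finset.sum_sub_distrib]
  refine Finset.sum_congr rfl fun S _ => ?_
  by_cases hS : S ∈ singles ι
  · rw [if_pos hS]
    obtain ⟨i, -, rfl⟩ := Finset.mem_image.mp hS
    simp
    ring
  · rw [if_neg hS]
    by_cases h0 : fourier f S = 0
    · simp [h0]
    · rcases card_of_not_singles f hd S hS h0 with hk | hk | hk | hk <;> rw [hk] <;> norm_num
      ring

/-- The sign vector of the level-one coefficients. -/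
noncomputable def sgnVec (f : (ι → ℤˣ) → ℤˣ) : ι → ℤˣ :=
  fun i => if 0 ≤ fourier f {i} then 1 else -1

theorem sgnVec_mul (f : (ι → ℤˣ) → ℤˣ) (i : ι) :
    ((sgnVec f i : ℤ) : ℝ) * fourier f {i} = |fourier f {i}| := by
  unfold sgnVec
  split_ifs with h
  · simp [abs_of_nonneg h]
  · push Not at h
    simp [abs_of_neg h]

theorem sum_abs_eq_sgn (f : (ι → ℤˣ) → ℤˣ) :
    ∑ i, |fourier f {i}| = ∑ i, ((sgnVec f i : ℤ) : ℝ) * fourier f {i} :=
  Finset.sum_congr rfl fun i _ => (sgnVec_mul f i).symm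

/-- If `f(s) = 1` and `f(-s) = -1` then `∑_i s_i f̂({i}) ≤ 3/2` (degree at most four). -/
theorem level_one_le_of_signs (f : (ι → ℤˣ) → ℤˣ) (hd : degree f ≤ 4) (s : ι → ℤˣ)
    (h1 : f s = 1) (h2 : f (-s) = -1) :
    ∑ i, ((s i : ℤ) : ℝ) * fourier f {i} ≤ 3 / 2 := by
  have h := level_one_formula f hd s
  rw [h1, h2] at h
  have ha : (0 : ℝ) ≤ (sens f s : ℝ) := Nat.cast_nonneg _
  have hb : (0 : ℝ) ≤ (sens f (-s) : ℝ) := Nat.cast_nonneg _
  push_cast at h
  linarith

/-- Quarter-integrality of the level-one sum in degree at most four. -/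
theorem level_one_quarter (f : (ι → ℤˣ) → ℤˣ) (hd : degree f ≤ 4) :
    ∃ m : ℤ, ∑ i, |fourier f {i}| = (m : ℝ) / 4 := by
  refine ⟨3 * ((f (sgnVec f) : ℤ) - (f (-sgnVec f) : ℤ)) -
    ((f (sgnVec f) : ℤ) * (sens f (sgnVec f) : ℤ) -
      (f (-sgnVec f) : ℤ) * (sens f (-sgnVec f) : ℤ)), ?_⟩
  have h := level_one_formula f hd (sgnVec f)
  rw [← sum_abs_eq_sgn] at h
  push_cast
  linarith

theorem sum_abs_le_sum_card (f : (ι → ℤˣ) → ℤˣ) :
    ∑ i, |fourier f {i}| ≤ ∑ S : Finset ι, (S.card : ℝ) * fourier f S ^ 2 := by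
  rw [← sum_influence]
  exact Finset.sum_le_sum fun i _ => abs_fourier_singleton_le f i

/-- `I(f) ≤ 4 - 3 W^1 - W^3` in degree at most four. -/
theorem sum_card_le_four (f : (ι → ℤˣ) → ℤˣ) (hd : degree f ≤ 4) :
    ∑ S : Finset ι, (S.card : ℝ) * fourier f S ^ 2 ≤
      4 - 3 * ∑ i, fourier f {i} ^ 2 -
        ∑ S : Finset ι, (if S.card = 3 then fourier f S ^ 2 else 0) := by
  have hterm : ∀ S : Finset ι, (S.card : ℝ) * fourier f S ^ 2 ≤
      4 * fourier f S ^ 2 - (if S ∈ singles ι then 3 * fourier f S ^ 2 else 0) -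
        (if S.card = 3 then fourier f S ^ 2 else 0) := by
    intro S
    by_cases hS : S ∈ singles ι
    · rw [if_pos hS]
      obtain ⟨i, -, rfl⟩ := Finset.mem_image.mp hS
      simp
      linarith
    · rw [if_neg hS]
      by_cases h0 : fourier f S = 0
      · simp [h0]
      · have hsq : 0 ≤ fourier f S ^ 2 := sq_nonneg _
        rcases card_of_not_singles f hd S hS h0 with hk | hk | hk | hk <;> rw [hk] <;>
          norm_num <;> linarith
  calc ∑ S : Finset ι, (S.card : ℝ) * fourier f S ^ 2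
      ≤ ∑ S : Finset ι, (4 * fourier f S ^ 2 -
          (if S ∈ singles ι then 3 * fourier f S ^ 2 else 0) -
          (if S.card = 3 then fourier f S ^ 2 else 0)) := Finset.sum_le_sum fun S _ => hterm S
    _ = 4 - 3 * ∑ i, fourier f {i} ^ 2 -
        ∑ S : Finset ι, (if S.card = 3 then fourier f S ^ 2 else 0) := by
      rw [Finset.sum_sub_distrib, Finset.sum_sub_distrib, ← Finset.mul_sum, parseval, mul_one,
        Finset.mul_sum, sum_singles (fun S => 3 * fourier f S ^ 2)]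

theorem sq_ge_abs_div (f : (ι → ℤˣ) → ℤˣ) (hd : degree f ≤ 4) (S : Finset ι)
    (hS : S.Nonempty) : |fourier f S| / 8 ≤ fourier f S ^ 2 := by
  by_cases h0 : fourier f S = 0
  · simp [h0]
  · have hge := abs_fourier_ge f 4 (by norm_num) hd S hS h0
    norm_num at hge
    rw [← sq_abs]
    nlinarith [abs_nonneg (fourier f S)]

/-- The level-one sum of a Boolean function of degree at most four is at most `5/2`. -/
theorem level_one_le_five_halves (f : (ι → ℤˣ) → ℤˣ) (hd : degree f ≤ 4) :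
    ∑ i, |fourier f {i}| ≤ 5 / 2 := by
  set σ := sgnVec f with hσ
  set c := ∑ i, |fourier f {i}| with hc
  set W3 := ∑ S : Finset ι, (if S.card = 3 then fourier f S ^ 2 else 0) with hW3
  set A3 := ∑ S : Finset ι, (if S.card = 3 then |fourier f S| else 0) with hA3
  obtain ⟨m, hm⟩ := level_one_quarter f hd
  -- the case f σ = 1, f (-σ) = -1
  by_cases hcase : f σ = 1 ∧ f (-σ) = -1
  · have := level_one_le_of_signs f hd σ hcase.1 hcase.2
    rw [← sum_abs_eq_sgn] at this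
    linarith
  -- otherwise f σ - f (-σ) ≤ 0
  have hE : ((f σ : ℤ) : ℝ) - ((f (-σ) : ℤ) : ℝ) ≤ 0 := by
    rcases Int.units_eq_one_or (f σ) with h1 | h1 <;>
      rcases Int.units_eq_one_or (f (-σ)) with h2 | h2
    · rw [h1, h2]; norm_num
    · exact absurd ⟨h1, h2⟩ hcase
    · rw [h1, h2]; norm_num
    · rw [h1, h2]; norm_num
  have hI : c ≤ 4 - 3 * ∑ i, fourier f {i} ^ 2 - W3 :=
    (sum_abs_le_sum_card f).trans (sum_card_le_four f hd)
  have hW1 : c / 8 ≤ ∑ i, fourier f {i} ^ 2 := by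
    rw [hc, Finset.sum_div]
    exact Finset.sum_le_sum fun i _ => sq_ge_abs_div f hd {i} (Finset.singleton_nonempty i)
  have hW3' : A3 / 8 ≤ W3 := by
    rw [hA3, hW3, Finset.sum_div]
    refine Finset.sum_le_sum fun S _ => ?_
    split_ifs with h3
    · exact sq_ge_abs_div f hd S (Finset.card_pos.mp (by omega))
    · simp
  -- E1: f σ - f (-σ) - 2c is bounded by 2 A3
  have hE1 : 2 * c - 2 * A3 ≤ ((f σ : ℤ) : ℝ) - ((f (-σ) : ℤ) : ℝ) := by
    have h2c : 2 * c = ∑ S : Finset ι, (if S ∈ singles ι then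
        2 * ((∏ j ∈ S, ((σ j : ℤ) : ℝ)) * fourier f S) else 0) := by
      rw [hc, sum_abs_eq_sgn, Finset.mul_sum,
        ← sum_singles (fun S => 2 * ((∏ j ∈ S, ((σ j : ℤ) : ℝ)) * fourier f S))]
      refine Finset.sum_congr rfl fun i _ => ?_
      rw [Finset.prod_singleton]
    rw [fourier_inversion f σ, fourier_inversion f (-σ)]
    simp_rw [chi_neg]
    rw [h2c, hA3, Finset.mul_sum, ← Finset.sum_sub_distrib, ← Finset.sum_sub_distrib]
    refine Finset.sum_le_sum fun S _ => ?_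
    by_cases hS : S ∈ singles ι
    · rw [if_pos hS]
      obtain ⟨i, -, rfl⟩ := Finset.mem_image.mp hS
      simp
      linarith
    · rw [if_neg hS]
      by_cases h0 : fourier f S = 0
      · simp [h0]
      · have hχ := abs_chi σ S
        have habs : |fourier f S * ∏ j ∈ S, ((σ j : ℤ) : ℝ)| = |fourier f S| := by
          rw [abs_mul, hχ, mul_one]
        have hlow : -|fourier f S| ≤ fourier f S * ∏ j ∈ S, ((σ j : ℤ) : ℝ) := by
          rw [← habs]; exact neg_abs_le _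
        have hnn : 0 ≤ |fourier f S| := abs_nonneg _
        rcases card_of_not_singles f hd S hS h0 with hk | hk | hk | hk <;> rw [hk] <;>
          norm_num <;> linarith
  have hc83 : c ≤ 8 / 3 := by linarith
  have hm' : c = (m : ℝ) / 4 := hm
  have hm10 : m ≤ 10 := by
    by_contra hcon
    push Not at hcon
    have : (11 : ℝ) ≤ (m : ℝ) := by exact_mod_cast hcon
    linarith
  have : (m : ℝ) ≤ 10 := by exact_mod_cast hm10
  linarith

/-- If `s` is a sign pattern of the level-one coefficients with `f(s) = 1`, `f(-s) = -1`, then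
`∑_i |f̂({i})| ≤ 3/2` (degree at most four). -/
theorem sum_abs_le_of_signs (f : (ι → ℤˣ) → ℤˣ) (hd : degree f ≤ 4) (s : ι → ℤˣ)
    (hs : ∀ i, 0 ≤ ((s i : ℤ) : ℝ) * fourier f {i}) (h1 : f s = 1) (h2 : f (-s) = -1) :
    ∑ i, |fourier f {i}| ≤ 3 / 2 := by
  have h := level_one_le_of_signs f hd s h1 h2
  have e : ∑ i, |fourier f {i}| = ∑ i, ((s i : ℤ) : ℝ) * fourier f {i} := by
    refine Finset.sum_congr rfl fun i _ => ?_
    rw [← abs_of_nonneg (hs i), abs_mul]
    rcases Int.units_eq_one_or (s i) with h | h <;> simp [h]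
  rw [e]; exact h

end Vale.Agent.Lib.P047
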