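import Vale.Agent.Lib.P047.DegFour

/-!
# P047: the level-one sum of a Boolean function of degree at most four is at most two

The proof applies the exact level-one formula `level_one_formula` at a point and at all of its
neighbours.
-/

namespace Vale.Agent.Lib.P047

open Finset

set_option linter.unusedSectionVars false

variable {ι : Type*} [Fintype ι] [DecidableEq ι]

/-- The level-one linear form `L(x) = ∑_i x_i f̂({i})`. -/
noncomputable def lin (f : (ι → ℤˣ) → ℤˣ) (x : ι → ℤˣ) : ℝ :=
  ∑ i, ((x i : ℤ) : ℝ) * fourier f {i}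

theorem lin_flip (f : (ι → ℤˣ) → ℤˣ) (x : ι → ℤˣ) (i : ι) :
    lin f (flip i x) = lin f x - 2 * (((x i : ℤ) : ℝ) * fourier f {i}) := by
  unfold lin
  have h : ∀ j, ((flip i x j : ℤ) : ℝ) * fourier f {j} =
      ((x j : ℤ) : ℝ) * fourier f {j} -
        (if j = i then 2 * (((x j : ℤ) : ℝ) * fourier f {j}) else 0) := by
    intro j
    unfold flip
    split_ifs with hj
    · push_cast; ring
    · ring
  simp_rw [h]
  rw [Finset.sum_sub_distrib, Finset.sum_ite_eq' Finset.univ i]
  simp

theorem neg_flip (i : ι) (x : ι → ℤˣ) : -(flip i x) = flip i (-x) := by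
  funext j
  unfold flip
  by_cases h : j = i <;> simp [h]

theorem sens_eq_card (f : (ι → ℤˣ) → ℤˣ) (x : ι → ℤˣ) :
    sens f x = (Finset.univ.filter fun i : ι => f (flip i x) ≠ f x).card := by
  unfold sens
  simp_rw [update_neg_eq_flip]

theorem one_le_sens_flip (f : (ι → ℤˣ) → ℤˣ) (x : ι → ℤˣ) (i : ι) (h : f (flip i x) ≠ f x) :
    1 ≤ sens f (flip i x) := by
  rw [sens_eq_card]
  apply Finset.card_pos.mpr
  refine ⟨i, ?_⟩
  rw [Finset.mem_filter]
  refine ⟨Finset.mem_univ i, ?_⟩
  rw [flip_flip]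
  exact fun e => h e.symm

theorem unit_cast_of_ne (u v : ℤˣ) (h : u ≠ v) : ((u : ℤ) : ℝ) = -((v : ℤ) : ℝ) := by
  rcases Int.units_eq_one_or u with hu | hu <;> rcases Int.units_eq_one_or v with hv | hv <;>
    simp_all

theorem abs_unit_cast (u : ℤˣ) : |((u : ℤ) : ℝ)| = 1 := by
  rcases Int.units_eq_one_or u with hu | hu <;> simp [hu]

theorem four_lin (f : (ι → ℤˣ) → ℤˣ) (hd : degree f ≤ 4) (x : ι → ℤˣ) :
    4 * lin f x = 3 * (((f x : ℤ) : ℝ) - ((f (-x) : ℤ) : ℝ)) -
      (((f x : ℤ) : ℝ) * (sens f x : ℝ) - ((f (-x) : ℤ) : ℝ) * (sens f (-x) : ℝ)) :=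
  level_one_formula f hd x

/-- Antipodal points with equal values: if `f(-y) = f(y)` and `D = sens(y) - sens(-y) ≥ 5`,
then `D (D - 6) ≤ 4 ∑_i |f̂({i})|`. -/
theorem equal_case (f : (ι → ℤˣ) → ℤˣ) (hd : degree f ≤ 4) (y : ι → ℤˣ)
    (hy : f (-y) = f y) (hD : sens f (-y) + 5 ≤ sens f y) :
    ((sens f y : ℝ) - (sens f (-y) : ℝ)) * ((sens f y : ℝ) - (sens f (-y) : ℝ) - 6) ≤
      4 * ∑ i, |fourier f {i}| := by
  set D : ℝ := (sens f y : ℝ) - (sens f (-y) : ℝ) with hDdef
  set v : ℝ := ((f y : ℤ) : ℝ) with hvdef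
  have hv : v * v = 1 := unit_cast_mul_self (f y)
  have hD5 : (5 : ℝ) ≤ D := by
    have : ((sens f (-y) + 5 : ℕ) : ℝ) ≤ (sens f y : ℝ) := by exact_mod_cast hD
    push_cast at this
    rw [hDdef]; linarith
  -- the formula at `y`
  have hLy : 4 * lin f y = -(v * D) := by
    have h := four_lin f hd y
    rw [hy] at h
    rw [h, hDdef]; ring
  -- the set of coordinates sensitive at `y` and not at `-y`
  set Q : Finset ι :=
    Finset.univ.filter fun i : ι => f (flip i y) ≠ f y ∧ ¬ f (flip i (-y)) ≠ f (-y) with hQ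
  have hQcard : D ≤ (Q.card : ℝ) := by
    have h1 : sens f y - sens f (-y) ≤ Q.card := by
      rw [sens_eq_card f y, sens_eq_card f (-y)]
      refine le_trans (Finset.le_card_sdiff _ _) (Finset.card_le_card ?_)
      intro i hi
      rw [Finset.mem_sdiff, Finset.mem_filter, Finset.mem_filter] at hi
      rw [hQ, Finset.mem_filter]
      exact ⟨Finset.mem_univ i, hi.1.2, fun h => hi.2 ⟨Finset.mem_univ i, h⟩⟩
    have h2 : ((sens f y - sens f (-y) : ℕ) : ℝ) ≤ (Q.card : ℝ) := by exact_mod_cast h1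
    rw [Nat.cast_sub (by omega)] at h2
    exact h2
  -- the lower bound on the coordinates of `Q`
  have hkey : ∀ i ∈ Q, (D - 5) / 8 ≤ -(v * (((y i : ℤ) : ℝ) * fourier f {i})) := by
    intro i hi
    rw [hQ, Finset.mem_filter] at hi
    obtain ⟨-, h1, h2⟩ := hi
    have h2' : f (flip i (-y)) = f (-y) := by
      by_contra hne; exact h2 hne
    have hx : ((f (flip i y) : ℤ) : ℝ) = -v := unit_cast_of_ne _ _ h1
    have hmx : ((f (-(flip i y)) : ℤ) : ℝ) = v := by
      rw [neg_flip, h2', hy]
    have hs1 : (1 : ℝ) ≤ (sens f (flip i y) : ℝ) := by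
      exact_mod_cast one_le_sens_flip f y i h1
    have hs2 : (0 : ℝ) ≤ (sens f (-(flip i y)) : ℝ) := Nat.cast_nonneg _
    have h := four_lin f hd (flip i y)
    rw [hx, hmx, lin_flip] at h
    have e : 8 * -(v * (((y i : ℤ) : ℝ) * fourier f {i})) =
        D - 6 + (sens f (flip i y) : ℝ) + (sens f (-(flip i y)) : ℝ) := by
      linear_combination v * h - v * hLy +
        (D - 6 + (sens f (flip i y) : ℝ) + (sens f (-(flip i y)) : ℝ)) * hv
    linarith
  -- absolute values
  have habs : ∀ i, |-(v * (((y i : ℤ) : ℝ) * fourier f {i}))| = |fourier f {i}| := by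
    intro i
    rw [abs_neg, abs_mul, abs_mul, hvdef, abs_unit_cast, abs_unit_cast, one_mul, one_mul]
  -- the total
  have hsum : ∑ i, -(v * (((y i : ℤ) : ℝ) * fourier f {i})) = D / 4 := by
    rw [Finset.sum_neg_distrib, ← Finset.mul_sum]
    have : ∑ i, ((y i : ℤ) : ℝ) * fourier f {i} = lin f y := rfl
    rw [this]
    linear_combination (-v / 4) * hLy + (D / 4) * hv
  have hsplit : ∑ i, -(v * (((y i : ℤ) : ℝ) * fourier f {i})) =
      ∑ i ∈ Q, -(v * (((y i : ℤ) : ℝ) * fourier f {i})) +
        ∑ i ∈ Finset.univ.filter (fun i => i ∉ Q),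
          -(v * (((y i : ℤ) : ℝ) * fourier f {i})) := by
    rw [← Finset.sum_filter_add_sum_filter_not Finset.univ (fun i => i ∈ Q)]
    congr 1
    refine Finset.sum_congr ?_ fun _ _ => rfl
    ext i; simp
  have hsplit2 : ∑ i, |fourier f {i}| =
      ∑ i ∈ Q, |fourier f {i}| + ∑ i ∈ Finset.univ.filter (fun i => i ∉ Q), |fourier f {i}| := by
    rw [← Finset.sum_filter_add_sum_filter_not Finset.univ (fun i => i ∈ Q)]
    congr 1
    refine Finset.sum_congr ?_ fun _ _ => rfl
    ext i; simp
  have hQlow : (Q.card : ℝ) * ((D - 5) / 8) ≤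
      ∑ i ∈ Q, -(v * (((y i : ℤ) : ℝ) * fourier f {i})) := by
    have := Finset.card_nsmul_le_sum Q (fun i => -(v * (((y i : ℤ) : ℝ) * fourier f {i})))
      ((D - 5) / 8) hkey
    rwa [nsmul_eq_mul] at this
  have hQabs : ∑ i ∈ Q, -(v * (((y i : ℤ) : ℝ) * fourier f {i})) ≤ ∑ i ∈ Q, |fourier f {i}| := by
    refine Finset.sum_le_sum fun i _ => ?_
    rw [← habs i]; exact le_abs_self _
  have hNabs : -∑ i ∈ Finset.univ.filter (fun i => i ∉ Q), |fourier f {i}| ≤
      ∑ i ∈ Finset.univ.filter (fun i => i ∉ Q),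
        -(v * (((y i : ℤ) : ℝ) * fourier f {i})) := by
    rw [← Finset.sum_neg_distrib]
    refine Finset.sum_le_sum fun i _ => ?_
    rw [← habs i]; exact neg_abs_le _
  have hprod : D * ((D - 5) / 8) ≤ (Q.card : ℝ) * ((D - 5) / 8) :=
    mul_le_mul_of_nonneg_right hQcard (by linarith)
  nlinarith

theorem lin_sgnVec (f : (ι → ℤˣ) → ℤˣ) : lin f (sgnVec f) = ∑ i, |fourier f {i}| :=
  (sum_abs_eq_sgn f).symm

theorem lin_flip_sgnVec (f : (ι → ℤˣ) → ℤˣ) (i : ι) :
    lin f (flip i (sgnVec f)) = ∑ i, |fourier f {i}| - 2 * |fourier f {i}| := by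
  rw [lin_flip, lin_sgnVec, sgnVec_mul]

/-- **Degree four**: the level-one sum of a Boolean function of degree at most four is at
most two. -/
theorem level_one_le_two (f : (ι → ℤˣ) → ℤˣ) (hd : degree f ≤ 4) :
    ∑ i, |fourier f {i}| ≤ 2 := by
  by_contra hcon
  push Not at hcon
  obtain ⟨m, hm⟩ := level_one_quarter f hd
  have h52 := level_one_le_five_halves f hd
  set σ := sgnVec f with hσ
  set c := ∑ i, |fourier f {i}| with hc
  have hc9 : (9 : ℝ) / 4 ≤ c := by
    have hm9 : (9 : ℤ) ≤ m := by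
      by_contra h
      push Not at h
      have : (m : ℝ) ≤ 8 := by exact_mod_cast (by omega : m ≤ 8)
      linarith
    have : (9 : ℝ) ≤ (m : ℝ) := by exact_mod_cast hm9
    linarith
  have hform := four_lin f hd σ
  rw [hσ, lin_sgnVec, ← hσ, ← hc] at hform
  rcases Int.units_eq_one_or (f σ) with h1 | h1 <;>
    rcases Int.units_eq_one_or (f (-σ)) with h2 | h2
  · -- f σ = 1, f (-σ) = 1
    rw [h1, h2] at hform
    push_cast at hform
    have hy : f (- -σ) = f (-σ) := by rw [neg_neg, h1, h2]
    have hD : sens f (- -σ) + 5 ≤ sens f (-σ) := by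
      rw [neg_neg]
      have : ((sens f σ + 5 : ℕ) : ℝ) ≤ (sens f (-σ) : ℝ) := by push_cast; linarith
      exact_mod_cast this
    have h := equal_case f hd (-σ) hy hD
    rw [neg_neg, ← hc] at h
    nlinarith
  · -- f σ = 1, f (-σ) = -1
    have := level_one_le_of_signs f hd σ h1 h2
    have e : ∑ i, ((σ i : ℤ) : ℝ) * fourier f {i} = c := lin_sgnVec f
    linarith
  · -- f σ = -1, f (-σ) = 1
    rw [h1, h2] at hform
    push_cast at hform
    have hS : (sens f σ : ℝ) + (sens f (-σ) : ℝ) = 4 * c + 6 := by linarith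
    -- the weights
    have hw : ∀ i : ι, ((if f (flip i σ) ≠ f σ then (1 : ℝ) else 0) +
        (if f (flip i (-σ)) ≠ f (-σ) then (1 : ℝ) else 0)) * (4 * c - 7) ≤
          8 * |fourier f {i}| := by
      intro i
      have hlin := lin_flip_sgnVec f i
      rw [← hσ, ← hc] at hlin
      have h := four_lin f hd (flip i σ)
      rw [hlin, neg_flip] at h
      have ha : 0 ≤ |fourier f {i}| := abs_nonneg _
      by_cases hA : f (flip i σ) ≠ f σ <;> by_cases hB : f (flip i (-σ)) ≠ f (-σ)
      · -- sensitive at both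
        rw [if_pos hA, if_pos hB]
        have hx : ((f (flip i σ) : ℤ) : ℝ) = 1 := by
          rw [unit_cast_of_ne _ _ hA, h1]; simp
        have hmx : ((f (flip i (-σ)) : ℤ) : ℝ) = -1 := by
          rw [unit_cast_of_ne _ _ hB, h2]; simp
        have hs1 : (1 : ℝ) ≤ (sens f (flip i σ) : ℝ) := by
          exact_mod_cast one_le_sens_flip f σ i hA
        have hs2 : (1 : ℝ) ≤ (sens f (flip i (-σ)) : ℝ) := by
          exact_mod_cast one_le_sens_flip f (-σ) i hB
        rw [hx, hmx] at h
        linarith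
      · -- sensitive at σ only
        rw [if_pos hA, if_neg hB]
        push Not at hB
        have hx : ((f (flip i σ) : ℤ) : ℝ) = 1 := by
          rw [unit_cast_of_ne _ _ hA, h1]; simp
        have hmx : ((f (flip i (-σ)) : ℤ) : ℝ) = 1 := by
          rw [hB, h2]; simp
        rw [hx, hmx] at h
        by_contra hlt
        push Not at hlt
        -- sens (-(x)) ≥ sens x + 8
        have hD8 : sens f (flip i σ) + 8 ≤ sens f (flip i (-σ)) := by
          have : ((sens f (flip i σ) + 7 : ℕ) : ℝ) < (sens f (flip i (-σ)) : ℝ) := by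
            push_cast; linarith
          have := (Nat.cast_lt (α := ℝ)).mp this
          omega
        have hD8' : (sens f (flip i σ) : ℝ) + 8 ≤ (sens f (flip i (-σ)) : ℝ) := by
          exact_mod_cast hD8
        have hD : sens f (-(-(flip i σ))) + 5 ≤ sens f (-(flip i σ)) := by
          rw [neg_neg, neg_flip]
          omega
        have hy : f (-(-(flip i σ))) = f (-(flip i σ)) := by
          rw [neg_neg, neg_flip, hB, h2]
          rcases Int.units_eq_one_or (f (flip i σ)) with hh | hh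
          · exact hh
          · rw [hh] at hx; norm_num at hx
        have hE := equal_case f hd (-(flip i σ)) hy hD
        rw [neg_neg, neg_flip, ← hc] at hE
        nlinarith [mul_nonneg (sub_nonneg.mpr hD8')
          (by linarith : (0 : ℝ) ≤ (sens f (flip i (-σ)) : ℝ) - (sens f (flip i σ) : ℝ) - 6)]
      · -- sensitive at -σ only
        rw [if_neg hA, if_pos hB]
        push Not at hA
        have hx : ((f (flip i σ) : ℤ) : ℝ) = -1 := by
          rw [hA, h1]; simp
        have hmx : ((f (flip i (-σ)) : ℤ) : ℝ) = -1 := by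
          rw [unit_cast_of_ne _ _ hB, h2]; simp
        rw [hx, hmx] at h
        by_contra hlt
        push Not at hlt
        have hD8 : sens f (flip i (-σ)) + 8 ≤ sens f (flip i σ) := by
          have : ((sens f (flip i (-σ)) + 7 : ℕ) : ℝ) < (sens f (flip i σ) : ℝ) := by
            push_cast; linarith
          have := (Nat.cast_lt (α := ℝ)).mp this
          omega
        have hD8' : (sens f (flip i (-σ)) : ℝ) + 8 ≤ (sens f (flip i σ) : ℝ) := by
          exact_mod_cast hD8
        have hD : sens f (-(flip i σ)) + 5 ≤ sens f (flip i σ) := by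
          rw [neg_flip]
          omega
        have hy : f (-(flip i σ)) = f (flip i σ) := by
          rw [neg_flip, hA, h1]
          rcases Int.units_eq_one_or (f (flip i (-σ))) with hh | hh
          · rw [hh] at hmx; norm_num at hmx
          · exact hh
        have hE := equal_case f hd (flip i σ) hy hD
        rw [neg_flip, ← hc] at hE
        nlinarith [mul_nonneg (sub_nonneg.mpr hD8')
          (by linarith : (0 : ℝ) ≤ (sens f (flip i σ) : ℝ) - (sens f (flip i (-σ)) : ℝ) - 6)]
      · rw [if_neg hA, if_neg hB]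
        linarith
    have hsumw : ∑ i : ι, ((if f (flip i σ) ≠ f σ then (1 : ℝ) else 0) +
        (if f (flip i (-σ)) ≠ f (-σ) then (1 : ℝ) else 0)) =
          (sens f σ : ℝ) + (sens f (-σ) : ℝ) := by
      rw [Finset.sum_add_distrib, sens_eq_card f σ, sens_eq_card f (-σ),
        Finset.card_filter, Finset.card_filter]
      push_cast
      rfl
    have htot : (4 * c + 6) * (4 * c - 7) ≤ 8 * c := by
      have hle := Finset.sum_le_sum (s := Finset.univ) fun i _ => hw i
      rw [← Finset.sum_mul, hsumw, hS, ← Finset.mul_sum, ← hc] at hle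
      exact hle
    nlinarith
  · -- f σ = -1, f (-σ) = -1
    rw [h1, h2] at hform
    push_cast at hform
    have hy : f (-σ) = f σ := by rw [h1, h2]
    have hD : sens f (-σ) + 5 ≤ sens f σ := by
      have : ((sens f (-σ) + 5 : ℕ) : ℝ) ≤ (sens f σ : ℝ) := by push_cast; linarith
      exact_mod_cast this
    have h := equal_case f hd σ hy hD
    rw [← hc] at h
    nlinarith

end Vale.Agent.Lib.P047
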