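import Vale.Agent.Lib.P047.DegFourBound

/-!
# P047: the level-one sum of a Boolean function of degree at most four is at most `7/4`

The proof refines `level_one_le_two`: the value `2` is excluded by applying the exact level-one
formula at a point, at its neighbours, and at the neighbours of one neighbour.
-/

namespace Vale.Agent.Lib.P047

open Finset

set_option linter.unusedSectionVars false

variable {ι : Type*} [Fintype ι] [DecidableEq ι]

/-- Antipodal points with equal values, inner form: if `f(-y) = f(y)` and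
`D = sens(y) - sens(-y) ≥ 5`, there are at least `D` coordinates `i` with
`|f̂({i})| ≥ (D - 5) / 8`. -/
theorem equal_case_inner (f : (ι → ℤˣ) → ℤˣ) (hd : degree f ≤ 4) (y : ι → ℤˣ)
    (hy : f (-y) = f y) (hD : sens f (-y) + 5 ≤ sens f y) :
    ∃ Q : Finset ι, sens f y ≤ sens f (-y) + Q.card ∧
      ∀ i ∈ Q, ((sens f y : ℝ) - (sens f (-y) : ℝ) - 5) / 8 ≤ |fourier f {i}| := by
  set D : ℝ := (sens f y : ℝ) - (sens f (-y) : ℝ) with hDdef
  set v : ℝ := ((f y : ℤ) : ℝ) with hvdef
  have hv : v * v = 1 := unit_cast_mul_self (f y)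
  have hLy : 4 * lin f y = -(v * D) := by
    have h := four_lin f hd y
    rw [hy] at h
    rw [h, hDdef]; ring
  refine ⟨Finset.univ.filter fun i : ι => f (flip i y) ≠ f y ∧ ¬ f (flip i (-y)) ≠ f (-y),
    ?_, ?_⟩
  · have h1 : sens f y - sens f (-y) ≤ (Finset.univ.filter fun i : ι =>
        f (flip i y) ≠ f y ∧ ¬ f (flip i (-y)) ≠ f (-y)).card := by
      rw [sens_eq_card f y, sens_eq_card f (-y)]
      refine le_trans (Finset.le_card_sdiff _ _) (Finset.card_le_card ?_)
      intro i hi
      rw [Finset.mem_sdiff, Finset.mem_filter, Finset.mem_filter] at hi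
      rw [Finset.mem_filter]
      exact ⟨Finset.mem_univ i, hi.1.2, fun h => hi.2 ⟨Finset.mem_univ i, h⟩⟩
    omega
  · intro i hi
    rw [Finset.mem_filter] at hi
    obtain ⟨-, h1, h2⟩ := hi
    have h2' : f (flip i (-y)) = f (-y) := by
      by_contra hne; exact h2 hne
    have hx : ((f (flip i y) : ℤ) : ℝ) = -v := unit_cast_of_ne _ _ h1
    have hmx : ((f (-(flip i y)) : ℤ) : ℝ) = v := by
      rw [neg_flip, h2', hy]
    have hs1 : (1 : ℝ) ≤ (sens f (flip i y) : ℝ) := by
      exact_mod_cast one_le_sens_flip f y i h1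
    have hs2 : (0 : ℝ) ≤ (sens f (-(flip i y)) : ℝ) := Nat.cast_nonneg _
    have h := four_lin f hd (flip i y)
    rw [hx, hmx, lin_flip] at h
    have e : 8 * -(v * (((y i : ℤ) : ℝ) * fourier f {i})) =
        D - 6 + (sens f (flip i y) : ℝ) + (sens f (-(flip i y)) : ℝ) := by
      linear_combination v * h - v * hLy +
        (D - 6 + (sens f (flip i y) : ℝ) + (sens f (-(flip i y)) : ℝ)) * hv
    have habs : |-(v * (((y i : ℤ) : ℝ) * fourier f {i}))| = |fourier f {i}| := by
      rw [abs_neg, abs_mul, abs_mul, hvdef, abs_unit_cast, abs_unit_cast, one_mul, one_mul]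
    have hle : -(v * (((y i : ℤ) : ℝ) * fourier f {i})) ≤ |fourier f {i}| := by
      rw [← habs]; exact le_abs_self _
    linarith

/-- A coordinate sensitive at the sign pattern `σ` and at `-σ`, when `f(σ) = -1`, `f(-σ) = 1`. -/
theorem both_sens (f : (ι → ℤˣ) → ℤˣ) (hd : degree f ≤ 4)
    (h1 : f (sgnVec f) = -1) (h2 : f (-sgnVec f) = 1) (i : ι)
    (hA : f (flip i (sgnVec f)) ≠ f (sgnVec f))
    (hB : f (flip i (-sgnVec f)) ≠ f (-sgnVec f)) :
    4 * ∑ j, |fourier f {j}| - 4 ≤ 8 * |fourier f {i}| := by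
  have h := four_lin f hd (flip i (sgnVec f))
  rw [lin_flip_sgnVec, neg_flip] at h
  have hx : ((f (flip i (sgnVec f)) : ℤ) : ℝ) = 1 := by
    rw [unit_cast_of_ne _ _ hA, h1]; simp
  have hmx : ((f (flip i (-sgnVec f)) : ℤ) : ℝ) = -1 := by
    rw [unit_cast_of_ne _ _ hB, h2]; simp
  have hs1 : (1 : ℝ) ≤ (sens f (flip i (sgnVec f)) : ℝ) := by
    exact_mod_cast one_le_sens_flip f (sgnVec f) i hA
  have hs2 : (1 : ℝ) ≤ (sens f (flip i (-sgnVec f)) : ℝ) := by
    exact_mod_cast one_le_sens_flip f (-sgnVec f) i hB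
  rw [hx, hmx] at h
  linarith

/-- A coordinate sensitive at exactly one of the sign pattern `σ` and `-σ`, when `f(σ) = -1`,
`f(-σ) = 1`: a neighbour pair with equal values and a prescribed sensitivity difference. -/
theorem one_sens (f : (ι → ℤˣ) → ℤˣ) (hd : degree f ≤ 4)
    (h1 : f (sgnVec f) = -1) (h2 : f (-sgnVec f) = 1) (i : ι)
    (hAB : ¬ (f (flip i (sgnVec f)) ≠ f (sgnVec f) ↔ f (flip i (-sgnVec f)) ≠ f (-sgnVec f))) :
    ∃ y : ι → ℤˣ, f (-y) = f y ∧
      (sens f y : ℝ) - (sens f (-y) : ℝ) = 4 * ∑ j, |fourier f {j}| - 8 * |fourier f {i}| := by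
  have h := four_lin f hd (flip i (sgnVec f))
  rw [lin_flip_sgnVec, neg_flip] at h
  by_cases hA : f (flip i (sgnVec f)) ≠ f (sgnVec f)
  · have hB : f (flip i (-sgnVec f)) = f (-sgnVec f) := by
      by_contra hB
      exact hAB ⟨fun _ => hB, fun _ => hA⟩
    have hx1 : f (flip i (sgnVec f)) = 1 := by
      rcases Int.units_eq_one_or (f (flip i (sgnVec f))) with hh | hh
      · exact hh
      · rw [hh, h1] at hA; exact absurd rfl hA
    refine ⟨-(flip i (sgnVec f)), ?_, ?_⟩
    · rw [neg_neg, neg_flip, hB, h2, hx1]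
    · rw [neg_neg, neg_flip]
      rw [hx1, hB, h2] at h
      push_cast at h
      linarith
  · push Not at hA
    have hB : f (flip i (-sgnVec f)) ≠ f (-sgnVec f) := by
      by_contra hB
      exact hAB ⟨fun hh => absurd hA hh, fun hh => absurd hB hh⟩
    have hmx1 : f (flip i (-sgnVec f)) = -1 := by
      rcases Int.units_eq_one_or (f (flip i (-sgnVec f))) with hh | hh
      · rw [hh, h2] at hB; exact absurd rfl hB
      · exact hh
    refine ⟨flip i (sgnVec f), ?_, ?_⟩
    · rw [neg_flip, hmx1, hA, h1]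
    · rw [neg_flip]
      rw [hA, h1, hmx1] at h
      push_cast at h
      linarith

/-- **Degree four, sharp**: the level-one sum of a Boolean function of degree at most four is
at most `7/4`. -/
theorem level_one_le_seven_quarters (f : (ι → ℤˣ) → ℤˣ) (hd : degree f ≤ 4) :
    ∑ i, |fourier f {i}| ≤ 7 / 4 := by
  by_contra hcon
  push Not at hcon
  obtain ⟨m, hm⟩ := level_one_quarter f hd
  have h2' := level_one_le_two f hd
  set σ := sgnVec f with hσ
  set c := ∑ i, |fourier f {i}| with hc
  have hc2 : c = 2 := by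
    have hm8 : (8 : ℤ) ≤ m := by
      by_contra h
      push Not at h
      have : (m : ℝ) ≤ 7 := by exact_mod_cast (by omega : m ≤ 7)
      linarith
    have : (8 : ℝ) ≤ (m : ℝ) := by exact_mod_cast hm8
    linarith
  have hform := four_lin f hd σ
  rw [hσ, lin_sgnVec, ← hσ, ← hc] at hform
  rcases Int.units_eq_one_or (f σ) with h1 | h1 <;>
    rcases Int.units_eq_one_or (f (-σ)) with h2 | h2
  · -- f σ = 1, f (-σ) = 1
    rw [h1, h2] at hform
    push_cast at hform
    have hy : f (- -σ) = f (-σ) := by rw [neg_neg, h1, h2]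
    have hD : sens f (- -σ) + 5 ≤ sens f (-σ) := by
      rw [neg_neg]
      have : ((sens f σ + 5 : ℕ) : ℝ) ≤ (sens f (-σ) : ℝ) := by push_cast; linarith
      exact_mod_cast this
    have h := equal_case f hd (-σ) hy hD
    rw [neg_neg, ← hc] at h
    nlinarith
  · -- f σ = 1, f (-σ) = -1
    have := level_one_le_of_signs f hd σ h1 h2
    have e : ∑ i, ((σ i : ℤ) : ℝ) * fourier f {i} = c := lin_sgnVec f
    linarith
  · -- f σ = -1, f (-σ) = 1
    rw [h1, h2] at hform
    push_cast at hform
    have hS : (sens f σ : ℝ) + (sens f (-σ) : ℝ) = 14 := by linarith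
    have hsumw : ∑ i : ι, ((if f (flip i σ) ≠ f σ then (1 : ℝ) else 0) +
        (if f (flip i (-σ)) ≠ f (-σ) then (1 : ℝ) else 0)) =
          (sens f σ : ℝ) + (sens f (-σ) : ℝ) := by
      rw [Finset.sum_add_distrib, sens_eq_card f σ, sens_eq_card f (-σ),
        Finset.card_filter, Finset.card_filter]
      push_cast
      rfl
    have hboth : ∀ i : ι, f (flip i σ) ≠ f σ → f (flip i (-σ)) ≠ f (-σ) →
        4 ≤ 8 * |fourier f {i}| := by
      intro i hA hB
      have := both_sens f hd h1 h2 i hA hB
      rw [← hc] at this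
      linarith
    -- a coordinate sensitive at exactly one of the two points has `8 |f̂({i})| ≥ 1`, and
    -- if `8 |f̂({i})| < 2` there are seven coordinates with `8 |f̂({j})| ≥ 2`
    have hone : ∀ i : ι, ¬ (f (flip i σ) ≠ f σ ↔ f (flip i (-σ)) ≠ f (-σ)) →
        1 ≤ 8 * |fourier f {i}| ∧ (8 * |fourier f {i}| < 2 →
          ∃ Q : Finset ι, 7 ≤ Q.card ∧ ∀ j ∈ Q, 2 ≤ 8 * |fourier f {j}|) := by
      intro i hAB
      obtain ⟨y, hy, hDy⟩ := one_sens f hd h1 h2 i hAB
      rw [← hc, hc2] at hDy
      have ha : 0 ≤ |fourier f {i}| := abs_nonneg _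
      constructor
      · by_contra hlt
        push Not at hlt
        have hD8 : sens f (-y) + 8 ≤ sens f y := by
          have : ((sens f (-y) + 7 : ℕ) : ℝ) < (sens f y : ℝ) := by
            push_cast; linarith
          have := (Nat.cast_lt (α := ℝ)).mp this
          omega
        have hD8' : (sens f (-y) : ℝ) + 8 ≤ (sens f y : ℝ) := by exact_mod_cast hD8
        have hE := equal_case f hd y hy (by omega)
        rw [← hc, hc2] at hE
        nlinarith [mul_nonneg (sub_nonneg.mpr hD8')
          (by linarith : (0 : ℝ) ≤ (sens f y : ℝ) - (sens f (-y) : ℝ) - 6)]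
      · intro hlt
        have hD7 : sens f (-y) + 7 ≤ sens f y := by
          have : ((sens f (-y) + 6 : ℕ) : ℝ) < (sens f y : ℝ) := by
            push_cast; linarith
          have := (Nat.cast_lt (α := ℝ)).mp this
          omega
        have hD7' : (sens f (-y) : ℝ) + 7 ≤ (sens f y : ℝ) := by exact_mod_cast hD7
        obtain ⟨Q, hQc, hQ⟩ := equal_case_inner f hd y hy (by omega)
        refine ⟨Q, by omega, fun j hj => ?_⟩
        have := hQ j hj
        linarith
    by_cases hex : ∃ i : ι, ¬ (f (flip i σ) ≠ f σ ↔ f (flip i (-σ)) ≠ f (-σ)) ∧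
        8 * |fourier f {i}| < 2
    · obtain ⟨i, hAB, hlt⟩ := hex
      obtain ⟨Q, hQc, hQ⟩ := (hone i hAB).2 hlt
      have hw : ∀ j : ι, ((if f (flip j σ) ≠ f σ then (1 : ℝ) else 0) +
          (if f (flip j (-σ)) ≠ f (-σ) then (1 : ℝ) else 0)) + (if j ∈ Q then (1 : ℝ) else 0) ≤
            8 * |fourier f {j}| := by
        intro j
        have ha : 0 ≤ |fourier f {j}| := abs_nonneg _
        by_cases hA : f (flip j σ) ≠ f σ <;> by_cases hB : f (flip j (-σ)) ≠ f (-σ) <;>
          by_cases hj : j ∈ Q
        · rw [if_pos hA, if_pos hB, if_pos hj]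
          have := hboth j hA hB
          linarith
        · rw [if_pos hA, if_pos hB, if_neg hj]
          have := hboth j hA hB
          linarith
        · rw [if_pos hA, if_neg hB, if_pos hj]
          have := hQ j hj
          linarith
        · rw [if_pos hA, if_neg hB, if_neg hj]
          have := (hone j (fun hiff => hB (hiff.mp hA))).1
          linarith
        · rw [if_neg hA, if_pos hB, if_pos hj]
          have := hQ j hj
          linarith
        · rw [if_neg hA, if_pos hB, if_neg hj]
          have := (hone j (fun hiff => hA (hiff.mpr hB))).1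
          linarith
        · rw [if_neg hA, if_neg hB, if_pos hj]
          have := hQ j hj
          linarith
        · rw [if_neg hA, if_neg hB, if_neg hj]
          linarith
      have hle := Finset.sum_le_sum (s := Finset.univ) fun j _ => hw j
      rw [Finset.sum_add_distrib, hsumw, hS, ← Finset.mul_sum, ← hc, hc2,
        Finset.sum_ite_mem, Finset.univ_inter, Finset.sum_const, nsmul_eq_mul, mul_one] at hle
      have hQ7 : (7 : ℝ) ≤ (Q.card : ℝ) := by exact_mod_cast hQc
      linarith
    · have hex' : ∀ i : ι, ¬ (f (flip i σ) ≠ f σ ↔ f (flip i (-σ)) ≠ f (-σ)) →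
          2 ≤ 8 * |fourier f {i}| := by
        intro i hAB
        by_contra hlt
        exact hex ⟨i, hAB, lt_of_not_ge hlt⟩
      have hw : ∀ j : ι, 2 * ((if f (flip j σ) ≠ f σ then (1 : ℝ) else 0) +
          (if f (flip j (-σ)) ≠ f (-σ) then (1 : ℝ) else 0)) ≤ 8 * |fourier f {j}| := by
        intro j
        have ha : 0 ≤ |fourier f {j}| := abs_nonneg _
        by_cases hA : f (flip j σ) ≠ f σ <;> by_cases hB : f (flip j (-σ)) ≠ f (-σ)
        · rw [if_pos hA, if_pos hB]
          have := hboth j hA hB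
          linarith
        · rw [if_pos hA, if_neg hB]
          have := hex' j (fun hiff => hB (hiff.mp hA))
          linarith
        · rw [if_neg hA, if_pos hB]
          have := hex' j (fun hiff => hA (hiff.mpr hB))
          linarith
        · rw [if_neg hA, if_neg hB]
          linarith
      have hle := Finset.sum_le_sum (s := Finset.univ) fun j _ => hw j
      rw [← Finset.mul_sum, hsumw, hS, ← Finset.mul_sum, ← hc, hc2] at hle
      linarith
  · -- f σ = -1, f (-σ) = -1
    rw [h1, h2] at hform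
    push_cast at hform
    have hy : f (-σ) = f σ := by rw [h1, h2]
    have hD : sens f (-σ) + 5 ≤ sens f σ := by
      have : ((sens f (-σ) + 5 : ℕ) : ℝ) ≤ (sens f σ : ℝ) := by push_cast; linarith
      exact_mod_cast this
    have h := equal_case f hd σ hy hD
    rw [← hc] at h
    nlinarith

end Vale.Agent.Lib.P047
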