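import Vale.Agent.Lib.P047.DegFourSharp

/-!
# P047: degree at most three, and the square-root inequality up to degree four

For Boolean functions of degree at most three there is a second exact identity (for the mean),
which together with the level-one formula gives the bound `3/2`.  Combined with the bound `7/4`
in degree four, this gives `∑_i |f̂({i})| ≤ √(deg f)` for every Boolean `f` of degree at most four.
-/

namespace Vale.Agent.Lib.P047

open Finset

set_option linter.unusedSectionVars false

variable {ι : Type*} [Fintype ι] [DecidableEq ι]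

/-- The exact level-zero formula for Boolean functions of degree at most three. -/
theorem level_zero_formula (f : (ι → ℤˣ) → ℤˣ) (hd : degree f ≤ 3) (s : ι → ℤˣ) :
    4 * fourier f ∅ =
      2 * (((f s : ℤ) : ℝ) + ((f (-s) : ℤ) : ℝ)) -
        (((f s : ℤ) : ℝ) * (sens f s : ℝ) + ((f (-s) : ℤ) : ℝ) * (sens f (-s) : ℝ)) := by
  rw [← laplacian f s, ← laplacian f (-s), fourier_inversion f s, fourier_inversion f (-s)]
  simp_rw [chi_neg]
  have hL : 4 * fourier f ∅ = ∑ S : Finset ι, (if S = ∅ then 4 * fourier f S else 0) := by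
    rw [Finset.sum_ite_eq' Finset.univ ∅]
    simp
  rw [hL, ← Finset.sum_add_distrib, ← Finset.sum_add_distrib, Finset.mul_sum,
    ← Finset.sum_sub_distrib]
  refine Finset.sum_congr rfl fun S _ => ?_
  by_cases hS : S = ∅
  · subst hS
    simp
    ring
  · rw [if_neg hS]
    by_cases h0 : fourier f S = 0
    · simp [h0]
    · have hle : S.card ≤ 3 := (card_le_degree f S h0).trans hd
      have hpos : 0 < S.card := Finset.card_pos.mpr (Finset.nonempty_iff_ne_empty.mpr hS)
      have hk : S.card = 1 ∨ S.card = 2 ∨ S.card = 3 := by omega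
      rcases hk with hk | hk | hk <;> rw [hk] <;> norm_num
      ring

/-- Pointwise form of the neighbour identity at an antipodal pair with equal values. -/
theorem equal_case_point (f : (ι → ℤˣ) → ℤˣ) (hd : degree f ≤ 4) (y : ι → ℤˣ)
    (hy : f (-y) = f y) (i : ι) (h1 : f (flip i y) ≠ f y) (h2 : f (flip i (-y)) = f (-y)) :
    (sens f y : ℝ) - (sens f (-y) : ℝ) - 6 + (sens f (flip i y) : ℝ) +
      (sens f (flip i (-y)) : ℝ) ≤ 8 * |fourier f {i}| := by
  set D : ℝ := (sens f y : ℝ) - (sens f (-y) : ℝ) with hDdef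
  set v : ℝ := ((f y : ℤ) : ℝ) with hvdef
  have hv : v * v = 1 := unit_cast_mul_self (f y)
  have hLy : 4 * lin f y = -(v * D) := by
    have h := four_lin f hd y
    rw [hy] at h
    rw [h, hDdef]; ring
  have hx : ((f (flip i y) : ℤ) : ℝ) = -v := unit_cast_of_ne _ _ h1
  have hmx : ((f (-(flip i y)) : ℤ) : ℝ) = v := by
    rw [neg_flip, h2, hy]
  have h := four_lin f hd (flip i y)
  rw [hx, hmx, lin_flip, neg_flip] at h
  have e : 8 * -(v * (((y i : ℤ) : ℝ) * fourier f {i})) =
      D - 6 + (sens f (flip i y) : ℝ) + (sens f (flip i (-y)) : ℝ) := by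
    linear_combination v * h - v * hLy +
      (D - 6 + (sens f (flip i y) : ℝ) + (sens f (flip i (-y)) : ℝ)) * hv
  have habs : |-(v * (((y i : ℤ) : ℝ) * fourier f {i}))| = |fourier f {i}| := by
    rw [abs_neg, abs_mul, abs_mul, hvdef, abs_unit_cast, abs_unit_cast, one_mul, one_mul]
  have hle : -(v * (((y i : ℤ) : ℝ) * fourier f {i})) ≤ |fourier f {i}| := by
    rw [← habs]; exact le_abs_self _
  linarith

/-- The number of coordinates sensitive at `y` and not at `-y` is at least
`sens(y) - sens(-y)`. -/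
theorem card_one_sided (f : (ι → ℤˣ) → ℤˣ) (y : ι → ℤˣ) :
    sens f y ≤ sens f (-y) + (Finset.univ.filter fun i : ι =>
      f (flip i y) ≠ f y ∧ f (flip i (-y)) = f (-y)).card := by
  have h1 : sens f y - sens f (-y) ≤ (Finset.univ.filter fun i : ι =>
      f (flip i y) ≠ f y ∧ f (flip i (-y)) = f (-y)).card := by
    rw [sens_eq_card f y, sens_eq_card f (-y)]
    refine le_trans (Finset.le_card_sdiff _ _) (Finset.card_le_card ?_)
    intro i hi
    rw [Finset.mem_sdiff, Finset.mem_filter, Finset.mem_filter] at hi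
    rw [Finset.mem_filter]
    refine ⟨Finset.mem_univ i, hi.1.2, ?_⟩
    by_contra hne
    exact hi.2 ⟨Finset.mem_univ i, hne⟩
  omega

/-- Degree at most three, antipodal points with equal values: with `D = sens(y) - sens(-y)`,
`D (2 sens(y) - 8) ≤ 8 ∑_i |f̂({i})|`. -/
theorem equal_case_three (f : (ι → ℤˣ) → ℤˣ) (hd : degree f ≤ 3) (y : ι → ℤˣ)
    (hy : f (-y) = f y) (h4 : 4 ≤ sens f y) :
    ((sens f y : ℝ) - (sens f (-y) : ℝ)) * (2 * (sens f y : ℝ) - 8) ≤
      8 * ∑ i, |fourier f {i}| := by
  have hd4 : degree f ≤ 4 := hd.trans (by norm_num)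
  set v : ℝ := ((f y : ℤ) : ℝ) with hvdef
  have hv : v * v = 1 := unit_cast_mul_self (f y)
  have hEy := level_zero_formula f hd y
  rw [hy, ← hvdef] at hEy
  set Q : Finset ι := Finset.univ.filter fun i : ι =>
    f (flip i y) ≠ f y ∧ f (flip i (-y)) = f (-y) with hQ
  have hcard := card_one_sided f y
  rw [← hQ] at hcard
  have hcard' : (sens f y : ℝ) - (sens f (-y) : ℝ) ≤ (Q.card : ℝ) := by
    have : (sens f y : ℝ) ≤ ((sens f (-y) + Q.card : ℕ) : ℝ) := by exact_mod_cast hcard
    push_cast at this
    linarith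
  have h4' : (4 : ℝ) ≤ (sens f y : ℝ) := by exact_mod_cast h4
  have hkey : ∀ i ∈ Q, 2 * (sens f y : ℝ) - 8 ≤ 8 * |fourier f {i}| := by
    intro i hi
    rw [hQ, Finset.mem_filter] at hi
    obtain ⟨-, h1, h2⟩ := hi
    have hp := equal_case_point f hd4 y hy i h1 h2
    have hx : ((f (flip i y) : ℤ) : ℝ) = -v := unit_cast_of_ne _ _ h1
    have hmx : ((f (-(flip i y)) : ℤ) : ℝ) = v := by
      rw [neg_flip, h2, hy]
    have hs1 : (1 : ℝ) ≤ (sens f (flip i y) : ℝ) := by
      exact_mod_cast one_le_sens_flip f y i h1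
    have hEx := level_zero_formula f hd (flip i y)
    rw [hx, hmx, neg_flip] at hEx
    -- `sens (flip i (-y)) = sens (flip i y) + sens y + sens (-y) - 4`
    have e : (sens f (flip i (-y)) : ℝ) =
        (sens f (flip i y) : ℝ) + (sens f y : ℝ) + (sens f (-y) : ℝ) - 4 := by
      linear_combination (-v) * hEy + v * hEx -
        ((sens f (flip i (-y)) : ℝ) - (sens f (flip i y) : ℝ) - (sens f y : ℝ) -
          (sens f (-y) : ℝ) + 4) * hv
    linarith
  have hsum : (Q.card : ℝ) * (2 * (sens f y : ℝ) - 8) ≤ ∑ i ∈ Q, 8 * |fourier f {i}| := by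
    have := Finset.card_nsmul_le_sum Q (fun i => 8 * |fourier f {i}|)
      (2 * (sens f y : ℝ) - 8) hkey
    rwa [nsmul_eq_mul] at this
  have hsub : ∑ i ∈ Q, 8 * |fourier f {i}| ≤ ∑ i, 8 * |fourier f {i}| :=
    Finset.sum_le_sum_of_subset_of_nonneg (Finset.subset_univ Q)
      (fun i _ _ => by positivity)
  have htot : ∑ i, 8 * |fourier f {i}| = 8 * ∑ i, |fourier f {i}| :=
    (Finset.mul_sum _ _ _).symm
  have hprod : ((sens f y : ℝ) - (sens f (-y) : ℝ)) * (2 * (sens f y : ℝ) - 8) ≤
      (Q.card : ℝ) * (2 * (sens f y : ℝ) - 8) :=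
    mul_le_mul_of_nonneg_right hcard' (by linarith)
  linarith

/-- **Degree three**: the level-one sum of a Boolean function of degree at most three is at
most `3/2`. -/
theorem level_one_le_three_halves (f : (ι → ℤˣ) → ℤˣ) (hd : degree f ≤ 3) :
    ∑ i, |fourier f {i}| ≤ 3 / 2 := by
  have hd4 : degree f ≤ 4 := hd.trans (by norm_num)
  by_contra hcon
  push Not at hcon
  obtain ⟨m, hm⟩ := level_one_quarter f hd4
  have h74 := level_one_le_seven_quarters f hd4
  set σ := sgnVec f with hσ
  set c := ∑ i, |fourier f {i}| with hc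
  have hc2 : c = 7 / 4 := by
    have hm7 : (7 : ℤ) ≤ m := by
      by_contra h
      push Not at h
      have : (m : ℝ) ≤ 6 := by exact_mod_cast (by omega : m ≤ 6)
      linarith
    have : (7 : ℝ) ≤ (m : ℝ) := by exact_mod_cast hm7
    linarith
  have hform := four_lin f hd4 σ
  rw [hσ, lin_sgnVec, ← hσ, ← hc] at hform
  have hE := level_zero_formula f hd σ
  rcases Int.units_eq_one_or (f σ) with h1 | h1 <;>
    rcases Int.units_eq_one_or (f (-σ)) with h2 | h2
  · -- f σ = 1, f (-σ) = 1
    rw [h1, h2] at hform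
    push_cast at hform
    have hy : f (- -σ) = f (-σ) := by rw [neg_neg, h1, h2]
    have hD : sens f σ + 7 ≤ sens f (-σ) := by
      have : ((sens f σ + 7 : ℕ) : ℝ) ≤ (sens f (-σ) : ℝ) := by push_cast; linarith
      exact_mod_cast this
    have h := equal_case_three f hd (-σ) hy (by omega)
    rw [neg_neg, ← hc] at h
    have hD' : (sens f σ : ℝ) + 7 ≤ (sens f (-σ) : ℝ) := by exact_mod_cast hD
    nlinarith [Nat.cast_nonneg (α := ℝ) (sens f σ)]
  · -- f σ = 1, f (-σ) = -1
    have := level_one_le_of_signs f hd4 σ h1 h2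
    have e : ∑ i, ((σ i : ℤ) : ℝ) * fourier f {i} = c := lin_sgnVec f
    linarith
  · -- f σ = -1, f (-σ) = 1
    rw [h1, h2] at hform hE
    push_cast at hform hE
    have hS : (sens f σ : ℝ) + (sens f (-σ) : ℝ) = 13 := by linarith
    -- per coordinate identities
    have hco : ∀ i : ι,
        (f (flip i σ) ≠ f σ → (3 + 4 * fourier f ∅) ≤ 8 * |fourier f {i}|) ∧
        (f (flip i (-σ)) ≠ f (-σ) → (3 - 4 * fourier f ∅) ≤ 8 * |fourier f {i}|) := by
      intro i
      have hlin := lin_flip_sgnVec f i
      rw [← hσ, ← hc] at hlin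
      have h := four_lin f hd4 (flip i σ)
      rw [hlin, neg_flip] at h
      have hEx := level_zero_formula f hd (flip i σ)
      rw [neg_flip] at hEx
      by_cases hA : f (flip i σ) ≠ f σ <;> by_cases hB : f (flip i (-σ)) ≠ f (-σ)
      · have hx : ((f (flip i σ) : ℤ) : ℝ) = 1 := by
          rw [unit_cast_of_ne _ _ hA, h1]; simp
        have hmx : ((f (flip i (-σ)) : ℤ) : ℝ) = -1 := by
          rw [unit_cast_of_ne _ _ hB, h2]; simp
        have hs1 : (1 : ℝ) ≤ (sens f (flip i σ) : ℝ) := by
          exact_mod_cast one_le_sens_flip f σ i hA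
        have hs2 : (1 : ℝ) ≤ (sens f (flip i (-σ)) : ℝ) := by
          exact_mod_cast one_le_sens_flip f (-σ) i hB
        rw [hx, hmx] at h hEx
        constructor
        · intro _; linarith
        · intro _; linarith
      · push Not at hB
        have hx : ((f (flip i σ) : ℤ) : ℝ) = 1 := by
          rw [unit_cast_of_ne _ _ hA, h1]; simp
        have hmx : ((f (flip i (-σ)) : ℤ) : ℝ) = 1 := by
          rw [hB, h2]; simp
        have hs1 : (1 : ℝ) ≤ (sens f (flip i σ) : ℝ) := by
          exact_mod_cast one_le_sens_flip f σ i hA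
        rw [hx, hmx] at h hEx
        constructor
        · intro _; linarith
        · intro hB'; exact absurd hB hB'
      · push Not at hA
        have hx : ((f (flip i σ) : ℤ) : ℝ) = -1 := by
          rw [hA, h1]; simp
        have hmx : ((f (flip i (-σ)) : ℤ) : ℝ) = -1 := by
          rw [unit_cast_of_ne _ _ hB, h2]; simp
        have hs2 : (1 : ℝ) ≤ (sens f (flip i (-σ)) : ℝ) := by
          exact_mod_cast one_le_sens_flip f (-σ) i hB
        rw [hx, hmx] at h hEx
        constructor
        · intro hA'; exact absurd hA hA'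
        · intro _; linarith
      · push Not at hA hB
        constructor
        · intro hA'; exact absurd hA hA'
        · intro hB'; exact absurd hB hB'
    by_cases hδ : 0 ≤ 4 * fourier f ∅
    · have hw : ∀ j : ι, (if f (flip j σ) ≠ f σ then (1 : ℝ) else 0) * (3 + 4 * fourier f ∅) ≤
          8 * |fourier f {j}| := by
        intro j
        have ha : 0 ≤ |fourier f {j}| := abs_nonneg _
        by_cases hA : f (flip j σ) ≠ f σ
        · rw [if_pos hA, one_mul]; exact (hco j).1 hA
        · rw [if_neg hA]; linarith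
      have hle := Finset.sum_le_sum (s := Finset.univ) fun j _ => hw j
      have hcnt : ∑ j : ι, (if f (flip j σ) ≠ f σ then (1 : ℝ) else 0) = (sens f σ : ℝ) := by
        rw [sens_eq_card f σ, Finset.card_filter]
        push_cast
        rfl
      rw [← Finset.sum_mul, hcnt, ← Finset.mul_sum, ← hc, hc2] at hle
      nlinarith
    · push Not at hδ
      have hw : ∀ j : ι, (if f (flip j (-σ)) ≠ f (-σ) then (1 : ℝ) else 0) *
          (3 - 4 * fourier f ∅) ≤ 8 * |fourier f {j}| := by
        intro j
        have ha : 0 ≤ |fourier f {j}| := abs_nonneg _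
        by_cases hB : f (flip j (-σ)) ≠ f (-σ)
        · rw [if_pos hB, one_mul]; exact (hco j).2 hB
        · rw [if_neg hB]; linarith
      have hle := Finset.sum_le_sum (s := Finset.univ) fun j _ => hw j
      have hcnt : ∑ j : ι, (if f (flip j (-σ)) ≠ f (-σ) then (1 : ℝ) else 0) =
          (sens f (-σ) : ℝ) := by
        rw [sens_eq_card f (-σ), Finset.card_filter]
        push_cast
        rfl
      rw [← Finset.sum_mul, hcnt, ← Finset.mul_sum, ← hc, hc2] at hle
      nlinarith
  · -- f σ = -1, f (-σ) = -1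
    rw [h1, h2] at hform
    push_cast at hform
    have hy : f (-σ) = f σ := by rw [h1, h2]
    have hD : sens f (-σ) + 7 ≤ sens f σ := by
      have : ((sens f (-σ) + 7 : ℕ) : ℝ) ≤ (sens f σ : ℝ) := by push_cast; linarith
      exact_mod_cast this
    have h := equal_case_three f hd σ hy (by omega)
    rw [← hc] at h
    have hD' : (sens f (-σ) : ℝ) + 7 ≤ (sens f σ : ℝ) := by exact_mod_cast hD
    nlinarith [Nat.cast_nonneg (α := ℝ) (sens f (-σ))]

/-- **The square-root inequality up to degree four**: `∑_i |f̂({i})| ≤ √(deg f)` for every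
Boolean function of degree at most four. -/
theorem level_one_le_sqrt_degree (f : (ι → ℤˣ) → ℤˣ) (hd : degree f ≤ 4) :
    ∑ i, |fourier f {i}| ≤ Real.sqrt (degree f) := by
  have hk : degree f = 0 ∨ degree f = 1 ∨ degree f = 2 ∨ degree f = 3 ∨ degree f = 4 := by
    omega
  rcases hk with hk | hk | hk | hk | hk
  · have h := sum_abs_le_degree f
    rw [hk] at h ⊢
    simpa using h
  · have h := sum_abs_le_degree f
    rw [hk] at h ⊢
    simpa using h
  · have h := sum_abs_le_granular f 2 (by norm_num) (by omega)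
    rw [hk]
    refine le_trans h ?_
    apply Real.le_sqrt_of_sq_le
    norm_num
  · have h := level_one_le_three_halves f (by omega)
    rw [hk]
    refine le_trans h ?_
    apply Real.le_sqrt_of_sq_le
    norm_num
  · have h := level_one_le_seven_quarters f hd
    rw [hk]
    refine le_trans h ?_
    apply Real.le_sqrt_of_sq_le
    norm_num

end Vale.Agent.Lib.P047
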