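import Vale.Agent.Lib.P047.DegFour

namespace Vale.Agent.Lib.P047

open Finset

set_option linter.unusedSectionVars false

variable {ι : Type*} [Fintype ι] [DecidableEq ι]

theorem chi_mul (s x : ι → ℤˣ) (S : Finset ι) :
    ∏ j ∈ S, (((s * x) j : ℤ) : ℝ) =
      (∏ j ∈ S, ((s j : ℤ) : ℝ)) * ∏ j ∈ S, ((x j : ℤ) : ℝ) := by
  rw [← Finset.prod_mul_distrib]
  refine Finset.prod_congr rfl fun j _ => ?_
  simp

theorem chi_sq (s : ι → ℤˣ) (S : Finset ι) :
    (∏ j ∈ S, ((s j : ℤ) : ℝ)) * ∏ j ∈ S, ((s j : ℤ) : ℝ) = 1 := by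
  rw [← Finset.prod_mul_distrib]
  exact Finset.prod_eq_one fun j _ => unit_cast_mul_self _

theorem fourier_mul (f : (ι → ℤˣ) → ℤˣ) (s : ι → ℤˣ) (S : Finset ι) :
    fourier (fun x => f (s * x)) S = (∏ i ∈ S, ((s i : ℤ) : ℝ)) * fourier f S := by
  unfold fourier
  rw [← mul_div_assoc, Finset.mul_sum]
  congr 1
  refine Fintype.sum_equiv (Equiv.mulLeft s) _ _ fun x => ?_
  simp only [Equiv.coe_mulLeft]
  rw [chi_mul]
  have := chi_sq s S
  linear_combination (-(((f (s * x) : ℤ) : ℝ) * ∏ j ∈ S, ((x j : ℤ) : ℝ))) * this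

theorem chi_ne_zero (s : ι → ℤˣ) (S : Finset ι) : ∏ i ∈ S, ((s i : ℤ) : ℝ) ≠ 0 := by
  intro h0
  have h1 := abs_chi s S
  rw [h0] at h1
  simp at h1

theorem degree_mul (f : (ι → ℤˣ) → ℤˣ) (s : ι → ℤˣ) :
    degree (fun x => f (s * x)) = degree f := by
  apply le_antisymm
  · apply degree_le_of
    intro S hS
    apply card_le_degree
    rw [fourier_mul] at hS
    exact right_ne_zero_of_mul hS
  · apply degree_le_of
    intro S hS
    apply card_le_degree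
    rw [fourier_mul]
    exact mul_ne_zero (chi_ne_zero s S) hS

theorem abs_fourier_mul (f : (ι → ℤˣ) → ℤˣ) (s : ι → ℤˣ) (S : Finset ι) :
    |fourier (fun x => f (s * x)) S| = |fourier f S| := by
  rw [fourier_mul, abs_mul, abs_chi, one_mul]

/-- The weight of the point `x` under the product measure with mean `t` in every coordinate. -/
noncomputable def bw (t : ℝ) (x : ι → ℤˣ) : ℝ := ∏ j, (1 + t * ((x j : ℤ) : ℝ)) / 2

theorem bw_nonneg (t : ℝ) (ht : |t| ≤ 1) (x : ι → ℤˣ) : 0 ≤ bw t x := by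
  unfold bw
  apply Finset.prod_nonneg
  intro j _
  have := abs_le.mp ht
  rcases Int.units_eq_one_or (x j) with h | h <;> simp [h] <;> linarith

theorem bw_pos (t : ℝ) (ht : |t| < 1) (x : ι → ℤˣ) : 0 < bw t x := by
  unfold bw
  apply Finset.prod_pos
  intro j _
  have := abs_lt.mp ht
  rcases Int.units_eq_one_or (x j) with h | h <;> simp [h] <;> linarith

theorem sum_bw_chi (t : ℝ) (T : Finset ι) :
    ∑ x : ι → ℤˣ, bw t x * ∏ j ∈ T, ((x j : ℤ) : ℝ) = t ^ T.card := by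
  have h1 : ∀ x : ι → ℤˣ, bw t x * ∏ j ∈ T, ((x j : ℤ) : ℝ) =
      ∏ j, ((1 + t * ((x j : ℤ) : ℝ)) / 2 * (if j ∈ T then ((x j : ℤ) : ℝ) else 1)) := by
    intro x
    unfold bw
    rw [Finset.prod_mul_distrib, Finset.prod_ite_mem, Finset.univ_inter]
  simp_rw [h1]
  rw [← Fintype.piFinset_univ, ← Finset.prod_univ_sum (fun _ => (Finset.univ : Finset ℤˣ))
    (fun j u => (1 + t * ((u : ℤ) : ℝ)) / 2 * (if j ∈ T then ((u : ℤ) : ℝ) else 1))]
  have h2 : ∀ j : ι,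
      ∑ u : ℤˣ, (1 + t * ((u : ℤ) : ℝ)) / 2 * (if j ∈ T then ((u : ℤ) : ℝ) else 1) =
      if j ∈ T then t else 1 := by
    intro j
    rw [sum_units]
    split_ifs <;> simp <;> ring
  simp_rw [h2]
  rw [Finset.prod_ite_mem, Finset.univ_inter, Finset.prod_const]

/-- The discrete derivative of `g` in direction `i`:
`(g(x with x_i = 1) - g(x with x_i = -1)) / 2`. -/
noncomputable def dd (g : (ι → ℤˣ) → ℤˣ) (i : ι) (x : ι → ℤˣ) : ℝ :=
  (((g x : ℤ) : ℝ) - ((g (flip i x) : ℤ) : ℝ)) / 2 * ((x i : ℤ) : ℝ)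

theorem dd_expansion (g : (ι → ℤˣ) → ℤˣ) (i : ι) (x : ι → ℤˣ) :
    dd g i x = ∑ S : Finset ι,
      (if i ∈ S then fourier g S * ∏ j ∈ S.erase i, ((x j : ℤ) : ℝ) else 0) := by
  unfold dd
  rw [fourier_inversion g x, fourier_inversion g (flip i x), ← Finset.sum_sub_distrib,
    Finset.sum_div, Finset.sum_mul]
  refine Finset.sum_congr rfl fun S _ => ?_
  rw [chi_flip]
  split_ifs with hi
  · rw [← Finset.mul_prod_erase S _ hi]
    have := unit_cast_mul_self (x i)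
    linear_combination (fourier g S * ∏ j ∈ S.erase i, ((x j : ℤ) : ℝ)) * this
  · ring

theorem sum_bw_dd (g : (ι → ℤˣ) → ℤˣ) (i : ι) (t : ℝ) :
    ∑ x : ι → ℤˣ, bw t x * dd g i x =
      ∑ S : Finset ι, (if i ∈ S then fourier g S * t ^ (S.card - 1) else 0) := by
  simp_rw [dd_expansion, Finset.mul_sum]
  rw [Finset.sum_comm]
  refine Finset.sum_congr rfl fun S _ => ?_
  split_ifs with hi
  · have : ∀ x : ι → ℤˣ, bw t x * (fourier g S * ∏ j ∈ S.erase i, ((x j : ℤ) : ℝ)) =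
        fourier g S * (bw t x * ∏ j ∈ S.erase i, ((x j : ℤ) : ℝ)) := fun x => by ring
    simp_rw [this]
    rw [← Finset.mul_sum, sum_bw_chi, Finset.card_erase_of_mem hi]
  · simp

theorem dd_nonneg (g : (ι → ℤˣ) → ℤˣ) (hg : Monotone g) (i : ι) (x : ι → ℤˣ) :
    0 ≤ dd g i x := by
  unfold dd
  rcases Int.units_eq_one_or (x i) with h | h
  · have hle : flip i x ≤ x := by
      intro j
      unfold flip
      split_ifs with hj
      · subst hj; rw [h]; exact Units.val_le_val.mp (by simp)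
      · exact le_rfl
    have h1 := Units.val_le_val.mpr (hg hle)
    have h2 : ((g (flip i x) : ℤ) : ℝ) ≤ ((g x : ℤ) : ℝ) := by exact_mod_cast h1
    rw [h]; simp; linarith
  · have hle : x ≤ flip i x := by
      intro j
      unfold flip
      split_ifs with hj
      · subst hj; rw [h]; exact Units.val_le_val.mp (by simp)
      · exact le_rfl
    have h1 := Units.val_le_val.mpr (hg hle)
    have h2 : ((g x : ℤ) : ℝ) ≤ ((g (flip i x) : ℤ) : ℝ) := by exact_mod_cast h1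
    rw [h]; simp; linarith

/-- `Qd g t = ∑_S |S| ĝ(S) t^(|S|-1)`, the derivative of `t ↦ ∑_S ĝ(S) t^|S|`. -/
noncomputable def Qd (g : (ι → ℤˣ) → ℤˣ) (t : ℝ) : ℝ :=
  ∑ S : Finset ι, (S.card : ℝ) * (fourier g S * t ^ (S.card - 1))

theorem Qd_eq (g : (ι → ℤˣ) → ℤˣ) (t : ℝ) :
    Qd g t = ∑ i, ∑ x : ι → ℤˣ, bw t x * dd g i x := by
  simp_rw [sum_bw_dd]
  rw [Finset.sum_comm]
  unfold Qd
  refine Finset.sum_congr rfl fun S _ => ?_
  rw [← Finset.sum_filter]
  simp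

theorem Qd_nonneg (g : (ι → ℤˣ) → ℤˣ) (hg : Monotone g) (t : ℝ) (ht : |t| ≤ 1) :
    0 ≤ Qd g t := by
  rw [Qd_eq]
  exact Finset.sum_nonneg fun i _ => Finset.sum_nonneg fun x _ =>
    mul_nonneg (bw_nonneg t ht x) (dd_nonneg g hg i x)

theorem Qd_pos (g : (ι → ℤˣ) → ℤˣ) (hg : Monotone g) (t : ℝ) (ht : |t| < 1)
    (i : ι) (x : ι → ℤˣ) (hx : 0 < dd g i x) : 0 < Qd g t := by
  rw [Qd_eq]
  have h1 : ∀ j ∈ (Finset.univ : Finset ι), 0 ≤ ∑ y : ι → ℤˣ, bw t y * dd g j y :=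
    fun j _ => Finset.sum_nonneg fun y _ =>
      mul_nonneg (bw_nonneg t ht.le y) (dd_nonneg g hg j y)
  have h2 : 0 < ∑ y : ι → ℤˣ, bw t y * dd g i y := by
    have h3 : ∀ y ∈ (Finset.univ : Finset (ι → ℤˣ)), 0 ≤ bw t y * dd g i y :=
      fun y _ => mul_nonneg (bw_nonneg t ht.le y) (dd_nonneg g hg i y)
    calc 0 < bw t x * dd g i x := mul_pos (bw_pos t ht x) hx
      _ ≤ ∑ y : ι → ℤˣ, bw t y * dd g i y := Finset.single_le_sum h3 (Finset.mem_univ x)
  calc 0 < ∑ y : ι → ℤˣ, bw t y * dd g i y := h2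
    _ ≤ ∑ j, ∑ y : ι → ℤˣ, bw t y * dd g j y := Finset.single_le_sum h1 (Finset.mem_univ i)

theorem Qd_zero (g : (ι → ℤˣ) → ℤˣ) : Qd g 0 = ∑ i, fourier g {i} := by
  unfold Qd
  rw [sum_singles (fun S => fourier g S)]
  refine Finset.sum_congr rfl fun S _ => ?_
  by_cases hS : S ∈ singles ι
  · rw [if_pos hS]
    obtain ⟨i, -, rfl⟩ := Finset.mem_image.mp hS
    simp
  · rw [if_neg hS]
    by_cases h0 : S.card = 0
    · simp [h0]
    · have hne : S.card ≠ 1 := by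
        intro h1
        obtain ⟨i, rfl⟩ := Finset.card_eq_one.mp h1
        exact hS (Finset.mem_image.mpr ⟨i, Finset.mem_univ i, rfl⟩)
      rw [zero_pow (by omega)]
      ring

theorem fourier_singleton_eq (g : (ι → ℤˣ) → ℤˣ) (i : ι) :
    fourier g {i} = ∑ x : ι → ℤˣ, bw 0 x * dd g i x := by
  rw [sum_bw_dd]
  rw [Finset.sum_eq_single {i}]
  · simp
  · intro S _ hS
    split_ifs with hi
    · have h2 : 2 ≤ S.card := by
        by_contra hlt
        push Not at hlt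
        have h1 : S.card = 1 := by
          have : 0 < S.card := Finset.card_pos.mpr ⟨i, hi⟩
          omega
        obtain ⟨j, rfl⟩ := Finset.card_eq_one.mp h1
        rw [Finset.mem_singleton] at hi
        subst hi
        exact hS rfl
      rw [zero_pow (by omega)]
      ring
    · rfl
  · intro h
    exact absurd (Finset.mem_univ _) h

theorem fourier_singleton_nonneg (g : (ι → ℤˣ) → ℤˣ) (hg : Monotone g) (i : ι) :
    0 ≤ fourier g {i} := by
  rw [fourier_singleton_eq]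
  exact Finset.sum_nonneg fun x _ =>
    mul_nonneg (bw_nonneg 0 (by simp) x) (dd_nonneg g hg i x)

theorem exists_dd_pos (g : (ι → ℤˣ) → ℤˣ) (i : ι)
    (hi : 0 < fourier g {i}) : ∃ x : ι → ℤˣ, 0 < dd g i x := by
  by_contra hcon
  push Not at hcon
  rw [fourier_singleton_eq] at hi
  have : ∑ x : ι → ℤˣ, bw 0 x * dd g i x ≤ 0 :=
    Finset.sum_nonpos fun x _ =>
      mul_nonpos_of_nonneg_of_nonpos (bw_nonneg 0 (by simp) x) (hcon x)
  linarith

/-- `g(1,...,1) - g(-1,...,-1) = ∑_S ĝ(S) (1 - (-1)^|S|)`. -/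
theorem endpoint_diff (g : (ι → ℤˣ) → ℤˣ) :
    ((g 1 : ℤ) : ℝ) - ((g (-1) : ℤ) : ℝ) =
      ∑ S : Finset ι, fourier g S * (1 - (-1) ^ S.card) := by
  rw [fourier_inversion g 1, fourier_inversion g (-1), ← Finset.sum_sub_distrib]
  refine Finset.sum_congr rfl fun S _ => ?_
  rw [chi_neg]
  simp
  ring

theorem endpoint_diff_le (g : (ι → ℤˣ) → ℤˣ) :
    ((g 1 : ℤ) : ℝ) - ((g (-1) : ℤ) : ℝ) ≤ 2 := by
  rcases Int.units_eq_one_or (g 1) with h1 | h1 <;>
    rcases Int.units_eq_one_or (g (-1)) with h2 | h2 <;> rw [h1, h2] <;> norm_num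

end Vale.Agent.Lib.P047
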