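import Vale.Agent.Lib.P047.Basic

namespace Vale.Agent.Lib.P047

open Finset

set_option linter.unusedSectionVars false

variable {ι : Type*} [Fintype ι] [DecidableEq ι]

theorem plancherel (f g : (ι → ℤˣ) → ℤˣ) :
    (∑ x : ι → ℤˣ, ((f x : ℤ) : ℝ) * ((g x : ℤ) : ℝ)) / 2 ^ Fintype.card ι =
      ∑ S : Finset ι, fourier f S * fourier g S := by
  have h2 : (2 : ℝ) ^ Fintype.card ι ≠ 0 := by positivity
  simp_rw [fourier_inversion g, Finset.mul_sum]
  rw [Finset.sum_comm, Finset.sum_div]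
  refine Finset.sum_congr rfl fun S _ => ?_
  have hS : ∑ x : ι → ℤˣ, ((f x : ℤ) : ℝ) * (fourier g S * ∏ j ∈ S, ((x j : ℤ) : ℝ)) =
      fourier g S * ∑ x : ι → ℤˣ, ((f x : ℤ) : ℝ) * ∏ j ∈ S, ((x j : ℤ) : ℝ) := by
    rw [Finset.mul_sum]; exact Finset.sum_congr rfl fun x _ => by ring
  rw [hS, show fourier f S = (∑ x : ι → ℤˣ, ((f x : ℤ) : ℝ) * ∏ j ∈ S, ((x j : ℤ) : ℝ)) /
    2 ^ Fintype.card ι from rfl]
  ring

theorem card_cube : (∑ _x : ι → ℤˣ, (1 : ℝ)) = 2 ^ Fintype.card ι := by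
  simp [Fintype.card_units_int]

theorem parseval (f : (ι → ℤˣ) → ℤˣ) : ∑ S : Finset ι, fourier f S ^ 2 = 1 := by
  have h := plancherel f f
  simp_rw [unit_cast_mul_self] at h
  have h2 : (2 : ℝ) ^ Fintype.card ι ≠ 0 := by positivity
  rw [card_cube, div_self h2] at h
  rw [h]
  exact Finset.sum_congr rfl fun S _ => by ring

/-- Flipping the `i`-th coordinate. -/
def flip (i : ι) (x : ι → ℤˣ) : ι → ℤˣ := fun j => if j = i then -(x j) else x j

theorem flip_flip (i : ι) (x : ι → ℤˣ) : flip i (flip i x) = x := by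
  funext j
  unfold flip
  split_ifs <;> simp

theorem fourier_flip (f : (ι → ℤˣ) → ℤˣ) (i : ι) (S : Finset ι) :
    fourier (fun x => f (flip i x)) S = if i ∈ S then -fourier f S else fourier f S := by
  unfold fourier
  have hinv : Function.Involutive (flip i : (ι → ℤˣ) → (ι → ℤˣ)) := flip_flip i
  rw [← Fintype.sum_equiv hinv.toPerm
    (fun x => ((f x : ℤ) : ℝ) * ∏ j ∈ S, ((flip i x j : ℤ) : ℝ))
    (fun x => ((f (flip i x) : ℤ) : ℝ) * ∏ j ∈ S, ((x j : ℤ) : ℝ))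
    (fun x => by
      show _ = ((f (flip i (flip i x)) : ℤ) : ℝ) * ∏ j ∈ S, ((flip i x j : ℤ) : ℝ)
      rw [flip_flip])]
  have hprod : ∀ x : ι → ℤˣ, ∏ j ∈ S, ((flip i x j : ℤ) : ℝ) =
      (if i ∈ S then -1 else 1) * ∏ j ∈ S, ((x j : ℤ) : ℝ) := by
    intro x
    have hj : ∀ j, ((flip i x j : ℤ) : ℝ) = (if j = i then (-1 : ℝ) else 1) * ((x j : ℤ) : ℝ) := by
      intro j; unfold flip; split_ifs <;> simp
    simp_rw [hj]
    rw [Finset.prod_mul_distrib, Finset.prod_ite_eq']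
  simp_rw [hprod]
  split_ifs with hi
  · rw [← neg_div, ← Finset.sum_neg_distrib]
    congr 1
    exact Finset.sum_congr rfl fun x _ => by ring
  · congr 1
    exact Finset.sum_congr rfl fun x _ => by ring

theorem unit_diff_abs (u v w : ℤˣ) :
    |(((u : ℤ) : ℝ) - ((v : ℤ) : ℝ)) / 2 * ((w : ℤ) : ℝ)| =
      (1 - ((u : ℤ) : ℝ) * ((v : ℤ) : ℝ)) / 2 := by
  rcases Int.units_eq_one_or u with rfl | rfl <;> rcases Int.units_eq_one_or v with rfl | rfl <;>
    rcases Int.units_eq_one_or w with rfl | rfl <;> norm_num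

/-- `|f̂({i})| ≤ Inf_i(f) = ∑_{S ∋ i} f̂(S)^2`. -/
theorem abs_fourier_singleton_le (f : (ι → ℤˣ) → ℤˣ) (i : ι) :
    |fourier f {i}| ≤ ∑ S ∈ univ.filter (fun S : Finset ι => i ∈ S), fourier f S ^ 2 := by
  set f' : (ι → ℤˣ) → ℤˣ := fun x => f (flip i x) with hf'
  have h2 : (2 : ℝ) ^ Fintype.card ι ≠ 0 := by positivity
  have h2pos : (0 : ℝ) < 2 ^ Fintype.card ι := by positivity
  have hcorr : (∑ x : ι → ℤˣ, ((f x : ℤ) : ℝ) * ((f' x : ℤ) : ℝ)) / 2 ^ Fintype.card ι =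
      ∑ S : Finset ι, (if i ∈ S then -(fourier f S ^ 2) else fourier f S ^ 2) := by
    rw [plancherel]
    refine Finset.sum_congr rfl fun S _ => ?_
    rw [hf', fourier_flip]
    split_ifs <;> ring
  have hinf : ∑ S ∈ univ.filter (fun S : Finset ι => i ∈ S), fourier f S ^ 2 =
      (1 - (∑ x : ι → ℤˣ, ((f x : ℤ) : ℝ) * ((f' x : ℤ) : ℝ)) / 2 ^ Fintype.card ι) / 2 := by
    rw [hcorr, ← parseval f, ← Finset.sum_sub_distrib, Finset.sum_div, Finset.sum_filter]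
    refine Finset.sum_congr rfl fun S _ => ?_
    split_ifs <;> ring
  have hf1 : fourier f {i} * 2 ^ Fintype.card ι =
      ∑ x : ι → ℤˣ, ((f x : ℤ) : ℝ) * ((x i : ℤ) : ℝ) := by
    unfold fourier
    rw [div_mul_cancel₀ _ h2]
    simp
  have hf2 : fourier f' {i} * 2 ^ Fintype.card ι =
      ∑ x : ι → ℤˣ, ((f' x : ℤ) : ℝ) * ((x i : ℤ) : ℝ) := by
    unfold fourier
    rw [div_mul_cancel₀ _ h2]
    simp
  have hneg : fourier f' {i} = -fourier f {i} := by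
    rw [hf', fourier_flip]; simp
  have hcoef : fourier f {i} * 2 ^ Fintype.card ι =
      ∑ x : ι → ℤˣ, (((f x : ℤ) : ℝ) - ((f' x : ℤ) : ℝ)) / 2 * ((x i : ℤ) : ℝ) := by
    have : ∑ x : ι → ℤˣ, (((f x : ℤ) : ℝ) - ((f' x : ℤ) : ℝ)) / 2 * ((x i : ℤ) : ℝ) =
        ((∑ x : ι → ℤˣ, ((f x : ℤ) : ℝ) * ((x i : ℤ) : ℝ)) -
          ∑ x : ι → ℤˣ, ((f' x : ℤ) : ℝ) * ((x i : ℤ) : ℝ)) / 2 := by
      rw [← Finset.sum_sub_distrib, Finset.sum_div]
      exact Finset.sum_congr rfl fun x _ => by ring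
    rw [this, ← hf1, ← hf2, hneg]
    ring
  have habs : |fourier f {i}| * 2 ^ Fintype.card ι ≤
      ∑ x : ι → ℤˣ, (1 - ((f x : ℤ) : ℝ) * ((f' x : ℤ) : ℝ)) / 2 := by
    have hmul : |fourier f {i}| * 2 ^ Fintype.card ι = |fourier f {i} * 2 ^ Fintype.card ι| := by
      rw [abs_mul, abs_of_pos h2pos]
    rw [hmul, hcoef]
    refine (Finset.abs_sum_le_sum_abs _ _).trans (le_of_eq ?_)
    exact Finset.sum_congr rfl fun x _ => unit_diff_abs _ _ _
  rw [hinf]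
  have hsum : ∑ x : ι → ℤˣ, (1 - ((f x : ℤ) : ℝ) * ((f' x : ℤ) : ℝ)) / 2 =
      (2 ^ Fintype.card ι - ∑ x : ι → ℤˣ, ((f x : ℤ) : ℝ) * ((f' x : ℤ) : ℝ)) / 2 := by
    rw [← card_cube, ← Finset.sum_sub_distrib, Finset.sum_div]
  rw [hsum] at habs
  rw [← sub_nonneg] at habs ⊢
  have key : (1 - (∑ x : ι → ℤˣ, ((f x : ℤ) : ℝ) * ((f' x : ℤ) : ℝ)) / 2 ^ Fintype.card ι) / 2 -
      |fourier f {i}| =
      ((2 ^ Fintype.card ι - ∑ x : ι → ℤˣ, ((f x : ℤ) : ℝ) * ((f' x : ℤ) : ℝ)) / 2 -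
        |fourier f {i}| * 2 ^ Fintype.card ι) / 2 ^ Fintype.card ι := by
    field_simp
  rw [key]
  exact div_nonneg habs h2pos.le

/-- `∑_i Inf_i(f) = ∑_S |S| f̂(S)^2`. -/
theorem sum_influence (f : (ι → ℤˣ) → ℤˣ) :
    ∑ i, ∑ S ∈ univ.filter (fun S : Finset ι => i ∈ S), fourier f S ^ 2 =
      ∑ S : Finset ι, (S.card : ℝ) * fourier f S ^ 2 := by
  simp_rw [Finset.sum_filter]
  rw [Finset.sum_comm]
  refine Finset.sum_congr rfl fun S _ => ?_
  rw [← Finset.sum_filter]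
  simp

/-- `∑_i |f̂({i})| ≤ d - (d - 1) ∑_i f̂({i})^2` for a Boolean function of degree at most `d ≥ 1`. -/
theorem sum_abs_le_sub (f : (ι → ℤˣ) → ℤˣ) (d : ℕ) (hd1 : 1 ≤ d) (hd : degree f ≤ d) :
    ∑ i, |fourier f {i}| ≤ d - ((d : ℝ) - 1) * ∑ i, fourier f {i} ^ 2 := by
  have hd1' : (1 : ℝ) ≤ d := by exact_mod_cast hd1
  have h1 : ∑ i, |fourier f {i}| ≤ ∑ S : Finset ι, (S.card : ℝ) * fourier f S ^ 2 := by
    rw [← sum_influence]
    exact Finset.sum_le_sum fun i _ => abs_fourier_singleton_le f i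
  set T : Finset (Finset ι) := Finset.univ.image (fun i : ι => ({i} : Finset ι)) with hT
  have hW : ∑ i, fourier f {i} ^ 2 = ∑ S ∈ T, fourier f S ^ 2 := by
    rw [hT, Finset.sum_image]
    intro i _ j _ hij
    exact Finset.singleton_injective hij
  have hsplit : ∀ S : Finset ι, (S.card : ℝ) * fourier f S ^ 2 ≤
      (d : ℝ) * fourier f S ^ 2 - (if S ∈ T then ((d : ℝ) - 1) * fourier f S ^ 2 else 0) := by
    intro S
    by_cases hS : S ∈ T
    · rw [if_pos hS]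
      obtain ⟨i, -, rfl⟩ := Finset.mem_image.mp hS
      rw [Finset.card_singleton]
      apply le_of_eq
      push_cast
      ring
    · rw [if_neg hS, sub_zero]
      by_cases h0 : fourier f S = 0
      · simp [h0]
      · have : S.card ≤ d := (card_le_degree f S h0).trans hd
        have : (S.card : ℝ) ≤ d := by exact_mod_cast this
        exact mul_le_mul_of_nonneg_right this (sq_nonneg _)
  calc ∑ i, |fourier f {i}| ≤ ∑ S : Finset ι, (S.card : ℝ) * fourier f S ^ 2 := h1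
    _ ≤ ∑ S : Finset ι, ((d : ℝ) * fourier f S ^ 2 -
          (if S ∈ T then ((d : ℝ) - 1) * fourier f S ^ 2 else 0)) :=
        Finset.sum_le_sum fun S _ => hsplit S
    _ = d - ((d : ℝ) - 1) * ∑ i, fourier f {i} ^ 2 := by
        rw [Finset.sum_sub_distrib, ← Finset.mul_sum, parseval, mul_one, Finset.sum_ite_mem,
          Finset.univ_inter, ← Finset.mul_sum, hW]

/-- The known bound `∑_i |f̂({i})| ≤ deg f`. -/
theorem sum_abs_le_degree (f : (ι → ℤˣ) → ℤˣ) : ∑ i, |fourier f {i}| ≤ degree f := by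
  by_cases h0 : degree f = 0
  · have : ∀ i, fourier f {i} = 0 := by
      intro i
      by_contra hne
      have := card_le_degree f {i} hne
      rw [Finset.card_singleton] at this
      omega
    simp [this, h0]
  · have h1 : 1 ≤ degree f := Nat.one_le_iff_ne_zero.mpr h0
    have h := sum_abs_le_sub f (degree f) h1 le_rfl
    have h1' : (1 : ℝ) ≤ degree f := by exact_mod_cast h1
    have hnn : 0 ≤ ((degree f : ℝ) - 1) * ∑ i, fourier f {i} ^ 2 :=
      mul_nonneg (by linarith) (Finset.sum_nonneg fun i _ => sq_nonneg _)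
    linarith

end Vale.Agent.Lib.P047
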