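import Vale.Agent.Lib.P047.CubeSum

namespace Vale.Agent.Lib.P047

/-- The index of a point of `{-1,1}^7`: bit `i` is set iff the `i`-th coordinate is `1`. -/
def exIdx (x : Fin 7 → ℤˣ) : ℕ :=
  (if x 0 = 1 then 1 else 0) + (if x 1 = 1 then 2 else 0) + (if x 2 = 1 then 4 else 0) +
  (if x 3 = 1 then 8 else 0) + (if x 4 = 1 then 16 else 0) + (if x 5 = 1 then 32 else 0) +
  (if x 6 = 1 then 64 else 0)

/-- A Boolean function on seven bits, given by its truth table. -/
def exF (x : Fin 7 → ℤˣ) : ℤˣ :=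
  if Nat.testBit 168796275971946939864948298303918309376 (exIdx x) then 1 else -1

theorem ex_single : ∀ i : Fin 7, cubeSum 7 (fun x => ((exF x : ℤˣ) : ℤ) * ((x i : ℤˣ) : ℤ)) = 32 := by
  decide +kernel

theorem ex_high : ∀ S : Finset (Fin 7), 5 ≤ S.card →
    cubeSum 7 (fun x => ((exF x : ℤˣ) : ℤ) * ∏ i ∈ S, ((x i : ℤˣ) : ℤ)) = 0 := by
  decide +kernel

theorem fourier_eq_cubeSum (n : ℕ) (f : (Fin n → ℤˣ) → ℤˣ) (S : Finset (Fin n)) :
    fourier f S =
      ((cubeSum n (fun x => ((f x : ℤˣ) : ℤ) * ∏ i ∈ S, ((x i : ℤˣ) : ℤ)) : ℤ) : ℝ) / 2 ^ n := by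
  rw [← sum_eq_cubeSum]
  unfold fourier
  rw [Fintype.card_fin]
  push_cast
  rfl

theorem exF_fourier_single (i : Fin 7) : fourier exF {i} = 1 / 4 := by
  rw [fourier_eq_cubeSum]
  have h := ex_single i
  simp only [Finset.prod_singleton]
  rw [h]
  norm_num

theorem exF_degree : degree exF ≤ 4 := by
  apply degree_le_of
  intro S hS
  by_contra hcon
  apply hS
  rw [fourier_eq_cubeSum, ex_high S (by omega)]
  simp

theorem ex_four : cubeSum 7 (fun x => ((exF x : ℤˣ) : ℤ) *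
    ∏ i ∈ ({0, 1, 3, 4} : Finset (Fin 7)), ((x i : ℤˣ) : ℤ)) = -16 := by
  decide +kernel

theorem exF_degree_eq : degree exF = 4 := by
  apply le_antisymm exF_degree
  have h : fourier exF ({0, 1, 3, 4} : Finset (Fin 7)) ≠ 0 := by
    rw [fourier_eq_cubeSum, ex_four]
    norm_num
  exact card_le_degree exF _ h

theorem exF_sum : ∑ i, fourier exF {i} = 7 / 4 := by
  simp only [exF_fourier_single]
  rw [Finset.sum_const, Finset.card_univ, Fintype.card_fin]
  norm_num

end Vale.Agent.Lib.P047
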