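import Vale.Agent.Lib.P047.Amplify
import Vale.Agent.Lib.P047.Influence

namespace Vale.Agent.Lib.P047

open Finset

set_option linter.unusedSectionVars false

/-- The set of values `∑_i f̂({i})` over all `n ≥ 1` and all Boolean functions
`f : {-1,1}^n → {-1,1}` with `deg f ≤ d`.  Its supremum is `M(d)`. -/
def levelOneSet (d : ℕ) : Set ℝ :=
  {L : ℝ | ∃ (n : ℕ) (f : (Fin n → ℤˣ) → ℤˣ), 1 ≤ n ∧ degree f ≤ d ∧ ∑ i, fourier f {i} = L}

theorem fourier_const {ι : Type*} [Fintype ι] [DecidableEq ι] (S : Finset ι) :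
    fourier (fun _ : ι → ℤˣ => (1 : ℤˣ)) S = if S = ∅ then 1 else 0 := by
  unfold fourier
  have h2 : (2 : ℝ) ^ Fintype.card ι ≠ 0 := by positivity
  simp only [Units.val_one, Int.cast_one, one_mul]
  rw [sum_chi]
  split_ifs
  · exact div_self h2
  · exact zero_div _

theorem levelOneSet_bddAbove (d : ℕ) : BddAbove (levelOneSet d) := by
  refine ⟨d, ?_⟩
  rintro L ⟨n, f, -, hd, rfl⟩
  calc ∑ i, fourier f {i} ≤ ∑ i, |fourier f {i}| := Finset.sum_le_sum fun i _ => le_abs_self _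
    _ ≤ degree f := sum_abs_le_degree f
    _ ≤ d := by exact_mod_cast hd

theorem zero_mem_levelOneSet (d : ℕ) : (0 : ℝ) ∈ levelOneSet d := by
  refine ⟨1, fun _ => 1, le_rfl, ?_, ?_⟩
  · apply degree_le_of
    intro S hS
    rw [fourier_const] at hS
    by_cases h : S = ∅
    · simp [h]
    · simp [h] at hS
  · simp [fourier_const]

theorem levelOneSet_nonempty (d : ℕ) : (levelOneSet d).Nonempty := ⟨0, zero_mem_levelOneSet d⟩

theorem sSup_levelOneSet_nonneg (d : ℕ) : 0 ≤ sSup (levelOneSet d) :=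
  le_csSup (levelOneSet_bddAbove d) (zero_mem_levelOneSet d)

theorem sSup_mul_sSup_le {S T : Set ℝ} (hS : S.Nonempty) (hT : T.Nonempty)
    (hT0 : 0 ≤ sSup T) {m : ℝ} (hm : 0 ≤ m)
    (h : ∀ a ∈ S, ∀ b ∈ T, 0 ≤ a → 0 ≤ b → a * b ≤ m) : sSup S * sSup T ≤ m := by
  rcases hT0.eq_or_lt with h0 | hpos
  · rw [← h0, mul_zero]; exact hm
  · rw [← le_div_iff₀ hpos]
    apply csSup_le hS
    intro a ha
    rw [le_div_iff₀ hpos]
    by_cases ha0 : a ≤ 0
    · exact (mul_nonpos_of_nonpos_of_nonneg ha0 hpos.le).trans hm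
    · push Not at ha0
      rw [mul_comm, ← le_div_iff₀ ha0]
      apply csSup_le hT
      intro b hb
      rw [le_div_iff₀ ha0]
      by_cases hb0 : b < 0
      · exact (mul_nonpos_of_nonpos_of_nonneg hb0.le ha0.le).trans hm
      · push Not at hb0
        rw [mul_comm]
        exact h a ha b hb ha0.le hb0

theorem oddDeg_le {ι : Type*} [Fintype ι] [DecidableEq ι] (f : (ι → ℤˣ) → ℤˣ) (d : ℕ)
    (hd : degree f ≤ d) (hodd : Odd d) :
    (if Odd (degree f) then degree f else degree f + 1) ≤ d := by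
  split_ifs with h
  · exact hd
  · have : degree f ≠ d := fun he => h (he ▸ hodd)
    omega

/-- For odd `d`: the value `∑_i |f̂({i})| + |f̂(∅)|` of any Boolean `f` of degree at most `d`
is attained as the level-one sum of a Boolean function of degree at most `d`. -/
theorem lam_mem_levelOneSet {n : ℕ} (f : (Fin n → ℤˣ) → ℤˣ) (d : ℕ) (hd : degree f ≤ d)
    (hodd : Odd d) : ∑ i, |fourier f {i}| + |fourier f ∅| ∈ levelOneSet d := by
  obtain ⟨g, -, hgL, hgD⟩ := exists_twist f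
  refine ⟨Fintype.card (Option (Fin n)), reindex (Fintype.equivFin (Option (Fin n))).symm g,
    ?_, ?_, ?_⟩
  · exact Fintype.card_pos
  · exact (degree_reindex_le _ g).trans (hgD.trans (oddDeg_le f d hd hodd))
  · rw [levelOne_reindex, hgL]

/-- For odd `d₁, d₂`: products of the values `∑_i |f̂({i})| + |f̂(∅)|` are level-one sums at
degree `d₁ d₂`. -/
theorem lam_mul_mem_levelOneSet {n₁ n₂ : ℕ} (f₁ : (Fin n₁ → ℤˣ) → ℤˣ) (f₂ : (Fin n₂ → ℤˣ) → ℤˣ)
    (d₁ d₂ : ℕ) (h₁ : degree f₁ ≤ d₁) (h₂ : degree f₂ ≤ d₂) (ho₁ : Odd d₁) (ho₂ : Odd d₂) :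
    (∑ i, |fourier f₁ {i}| + |fourier f₁ ∅|) * (∑ i, |fourier f₂ {i}| + |fourier f₂ ∅|) ∈
      levelOneSet (d₁ * d₂) := by
  obtain ⟨g₁, -, h1L, h1D⟩ := exists_twist f₁
  obtain ⟨g₂, h20, h2L, h2D⟩ := exists_twist f₂
  refine ⟨Fintype.card (Option (Fin n₁) × Option (Fin n₂)),
    reindex (Fintype.equivFin (Option (Fin n₁) × Option (Fin n₂))).symm (comp g₁ g₂), ?_, ?_, ?_⟩
  · exact Fintype.card_pos
  · calc degree (reindex (Fintype.equivFin (Option (Fin n₁) × Option (Fin n₂))).symm (comp g₁ g₂))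
        ≤ degree (comp g₁ g₂) := degree_reindex_le _ _
      _ ≤ degree g₁ * degree g₂ := degree_comp_le g₁ g₂ h20
      _ ≤ d₁ * d₂ := Nat.mul_le_mul (h1D.trans (oddDeg_le f₁ d₁ h₁ ho₁))
          (h2D.trans (oddDeg_le f₂ d₂ h₂ ho₂))
  · rw [levelOne_reindex, levelOne_comp g₁ g₂ h20, h1L, h2L]

theorem lam_nonneg {n : ℕ} (f : (Fin n → ℤˣ) → ℤˣ) :
    0 ≤ ∑ i, |fourier f {i}| + |fourier f ∅| :=
  add_nonneg (Finset.sum_nonneg fun _ _ => abs_nonneg _) (abs_nonneg _)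

theorem levelOne_le_lam {n : ℕ} (f : (Fin n → ℤˣ) → ℤˣ) :
    ∑ i, fourier f {i} ≤ ∑ i, |fourier f {i}| + |fourier f ∅| :=
  (Finset.sum_le_sum fun _ _ => le_abs_self _).trans (le_add_of_nonneg_right (abs_nonneg _))

/-- Supermultiplicativity of `M` on odd degrees. -/
theorem sSup_levelOneSet_mul_le (d₁ d₂ : ℕ) (ho₁ : Odd d₁) (ho₂ : Odd d₂) :
    sSup (levelOneSet d₁) * sSup (levelOneSet d₂) ≤ sSup (levelOneSet (d₁ * d₂)) := by
  apply sSup_mul_sSup_le (levelOneSet_nonempty d₁) (levelOneSet_nonempty d₂)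
    (sSup_levelOneSet_nonneg d₂) (sSup_levelOneSet_nonneg _)
  rintro a ⟨n₁, f₁, -, h₁, rfl⟩ b ⟨n₂, f₂, -, h₂, rfl⟩ ha hb
  calc (∑ i, fourier f₁ {i}) * ∑ i, fourier f₂ {i}
      ≤ (∑ i, |fourier f₁ {i}| + |fourier f₁ ∅|) * (∑ i, |fourier f₂ {i}| + |fourier f₂ ∅|) :=
        mul_le_mul (levelOne_le_lam f₁) (levelOne_le_lam f₂) hb (lam_nonneg f₁)
    _ ≤ sSup (levelOneSet (d₁ * d₂)) :=
        le_csSup (levelOneSet_bddAbove _) (lam_mul_mem_levelOneSet f₁ f₂ d₁ d₂ h₁ h₂ ho₁ ho₂)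

end Vale.Agent.Lib.P047
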