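import Vale.Agent.Lib.P047.Walsh

namespace Vale.Agent.Lib.P047

/-- The index of a point of the cube: bit `i` is set iff the `i`-th coordinate is `-1`. -/
def bitIdx (n : ℕ) (x : Fin n → ℤˣ) : ℕ := ∑ i : Fin n, if x i = 1 then 0 else 2 ^ (i : ℕ)

/-- The Boolean function on `n` bits whose truth table is the binary expansion of `T`:
the value at `x` is `1` iff bit `bitIdx n x` of `T` is set. -/
def tableFun (T : ℕ) (n : ℕ) (x : Fin n → ℤˣ) : ℤˣ := if Nat.testBit T (bitIdx n x) then 1 else -1

/-- A Boolean function on ten bits. -/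
def exG : (Fin 10 → ℤˣ) → ℤˣ := tableFun 44945082190545032023916468684166485247868776430474846486490166775673688730055148530588739503451220326230683065513456156783922372895293397605298604348344962870262585764418627435154340362312717655295823131730599580264995354485588087443783409976297367906900377903164844313932469623619489491737512247037085581309 10

theorem exG_high : allHigh 10 6 (had 10 (tabOf 10 (fun x => ((exG x : ℤˣ) : ℤ)))) = true := by
  decide +kernel

theorem exG_degree : degree exG ≤ 5 := degree_le_of_allHigh 10 5 exG exG_high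

theorem exG_single : ∀ i : Fin 10,
    cubeSum 10 (fun x => ((exG x : ℤˣ) : ℤ) * ((x i : ℤˣ) : ℤ)) = if i = 0 then 448 else 192 := by
  decide +kernel

theorem fourier_singleton_eq_cubeSum (n : ℕ) (f : (Fin n → ℤˣ) → ℤˣ) (i : Fin n) :
    fourier f {i} =
      ((cubeSum n (fun x => ((f x : ℤˣ) : ℤ) * ((x i : ℤˣ) : ℤ)) : ℤ) : ℝ) / 2 ^ n := by
  rw [← sum_eq_cubeSum]
  unfold fourier
  rw [Fintype.card_fin]
  simp only [Finset.prod_singleton]
  push_cast
  rfl

theorem exG_fourier_single (i : Fin 10) :
    fourier exG {i} = if i = 0 then 7 / 16 else 3 / 16 := by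
  rw [fourier_singleton_eq_cubeSum, exG_single i]
  split_ifs <;> norm_num

theorem exG_sum : ∑ i, fourier exG {i} = 17 / 8 := by
  simp only [exG_fourier_single]
  rw [Fin.sum_univ_succ]
  simp only [Fin.succ_ne_zero, if_true, if_false, Finset.sum_const, Finset.card_univ,
    Fintype.card_fin]
  norm_num

end Vale.Agent.Lib.P047
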