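import Vale.Agent.Lib.P047.SevenEx
import Vale.Agent.Lib.P047.TenEx

namespace Vale.Agent.Lib.P047

/-- A Boolean function on twelve bits. -/
def exH : (Fin 12 → ℤˣ) → ℤˣ := tableFun 522194440706576253572342094187932846548805043666676365722660309189177245910039906475977024598962420638659816872325090935146678378555202294439548730446814813809902904214597964888617934295742344730640727737397718096235958500393312181186939281621845319830359370760565808836813370031746514963372643710653312788045856415439001863173808055040666432229202395123723486426361551054370421891542584958767034597877568835201167132904165237239185944190559629358831545094471216529318351628268723917610160961258031145328558227145681209865803702409051166263769903255020584265149746946836621060387292044298350588827863115584264680665343634613900966950189840048067068921296835348908866015339553354775468525129241985747006806015192970572727029707353804826516986218200415859678935866296364888800500262272006233062687584274524035057496047926768570910446761459945879992923251146094022811156382362647015326061908313407829757060783055684725087488904411078437620665479620470791256215268389739002746129203087078195839276703097377452081896159024651207533283652838192631650716461589804094895572718346868227505264302028985952727068827068525456486971226834684038658284618925135138039928494949717883597516899057775962634414730894150946983985409742630305607677116414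 12

theorem exH_high : allHigh 12 8 (had 12 (tabOf 12 (fun x => ((exH x : ℤˣ) : ℤ)))) = true := by
  decide +kernel

theorem exH_degree : degree exH ≤ 7 := degree_le_of_allHigh 12 7 exH exH_high

theorem exH_single : ∀ i : Fin 12,
    cubeSum 12 (fun x => ((exH x : ℤˣ) : ℤ) * ((x i : ℤˣ) : ℤ)) = 832 := by
  decide +kernel

theorem exH_fourier_single (i : Fin 12) : fourier exH {i} = 13 / 64 := by
  rw [fourier_singleton_eq_cubeSum, exH_single i]
  norm_num

theorem exH_sum : ∑ i, fourier exH {i} = 39 / 16 := by
  simp only [exH_fourier_single]
  rw [Finset.sum_const, Finset.card_univ, Fintype.card_fin]
  norm_num

theorem exH_seven : cubeSum 12 (fun x => ((exH x : ℤˣ) : ℤ) *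
    ∏ i ∈ ({0, 1, 2, 3, 4, 5, 6} : Finset (Fin 12)), ((x i : ℤˣ) : ℤ)) = 64 := by
  decide +kernel

theorem exH_degree_eq : degree exH = 7 := by
  apply le_antisymm exH_degree
  have h : fourier exH ({0, 1, 2, 3, 4, 5, 6} : Finset (Fin 12)) ≠ 0 := by
    rw [fourier_eq_cubeSum, exH_seven]
    norm_num
  exact card_le_degree exH _ h

end Vale.Agent.Lib.P047
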