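import Vale.Agent.Lib.P047.Basic

namespace Vale.Agent.Lib.P047

open Finset

set_option linter.unusedSectionVars false

variable {ι : Type*} [Fintype ι] [DecidableEq ι]

/-- The odd twist of `f` with signs `s`, `t`:
`G(y, x) = (t y) · f(s · (t y) · x)` on the cube indexed by `Option ι`
(`y` is the coordinate `none`). -/
def twist (f : (ι → ℤˣ) → ℤˣ) (s : ι → ℤˣ) (t : ℤˣ) : (Option ι → ℤˣ) → ℤˣ :=
  fun z => (t * z none) * f (fun i => s i * (t * z none) * z (some i))

theorem prod_option_split (T : Finset (Option ι)) (z : Option ι → ℤˣ) :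
    ∏ a ∈ T, ((z a : ℤ) : ℝ) =
      (if none ∈ T then ((z none : ℤ) : ℝ) else 1) *
        ∏ i ∈ T.eraseNone, ((z (some i) : ℤ) : ℝ) := by
  by_cases h : none ∈ T
  · have hT : T = insertNone T.eraseNone := by
      rw [Finset.insertNone_eraseNone, Finset.insert_eq_of_mem h]
    conv_lhs => rw [hT]
    rw [Finset.prod_insertNone]
    simp [h]
  · have hT : T = T.eraseNone.map Function.Embedding.some := by
      rw [Finset.map_some_eraseNone, Finset.erase_eq_of_notMem h]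
    conv_lhs => rw [hT]
    rw [Finset.prod_map]
    simp [h]

theorem twist_sum (f : (ι → ℤˣ) → ℤˣ) (s : ι → ℤˣ) (t : ℤˣ) (T : Finset (Option ι)) :
    ∑ z : Option ι → ℤˣ, ((twist f s t z : ℤ) : ℝ) * ∏ a ∈ T, ((z a : ℤ) : ℝ) =
      (∑ y : ℤˣ, (((t * y : ℤˣ) : ℤ) : ℝ) ^ (1 + T.eraseNone.card) *
          (if none ∈ T then ((y : ℤ) : ℝ) else 1)) *
        ((∏ i ∈ T.eraseNone, ((s i : ℤ) : ℝ)) *
          ∑ x : ι → ℤˣ, ((f x : ℤ) : ℝ) * ∏ i ∈ T.eraseNone, ((x i : ℤ) : ℝ)) := by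
  rw [Fintype.sum_equiv Equiv.piOptionEquivProd
    (fun z : Option ι → ℤˣ => ((twist f s t z : ℤ) : ℝ) * ∏ a ∈ T, ((z a : ℤ) : ℝ))
    (fun p : ℤˣ × (ι → ℤˣ) =>
      ((((t * p.1) * f (fun i => s i * (t * p.1) * p.2 i) : ℤˣ) : ℤ) : ℝ) *
        ((if none ∈ T then ((p.1 : ℤ) : ℝ) else 1) * ∏ i ∈ T.eraseNone, ((p.2 i : ℤ) : ℝ)))
    (fun z => by rw [prod_option_split]; rfl)]
  rw [Fintype.sum_prod_type, Finset.sum_mul]
  refine Finset.sum_congr rfl fun y _ => ?_
  -- substitution `x ↦ s · (t y) · x`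
  have hσ : Function.Involutive (fun (x : ι → ℤˣ) (i : ι) => s i * (t * y) * x i) := by
    intro x; funext i
    show s i * (t * y) * (s i * (t * y) * x i) = x i
    rw [← mul_assoc, Int.units_mul_self, one_mul]
  rw [← Fintype.sum_equiv hσ.toPerm
    (fun x : ι → ℤˣ => ((((t * y) * f x : ℤˣ) : ℤ) : ℝ) *
        ((if none ∈ T then ((y : ℤ) : ℝ) else 1) *
          ∏ i ∈ T.eraseNone, (((s i * (t * y) * x i : ℤˣ) : ℤ) : ℝ)))
    (fun x : ι → ℤˣ => ((((t * y) * f (fun i => s i * (t * y) * x i) : ℤˣ) : ℤ) : ℝ) *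
        ((if none ∈ T then ((y : ℤ) : ℝ) else 1) * ∏ i ∈ T.eraseNone, ((x i : ℤ) : ℝ)))
    (fun x => by
      show _ = ((((t * y) * f (fun i => s i * (t * y) * (s i * (t * y) * x i)) : ℤˣ) : ℤ) : ℝ) *
        ((if none ∈ T then ((y : ℤ) : ℝ) else 1) *
          ∏ i ∈ T.eraseNone, (((s i * (t * y) * x i : ℤˣ) : ℤ) : ℝ))
      have : (fun i => s i * (t * y) * (s i * (t * y) * x i)) = x := hσ x
      rw [this])]
  rw [Finset.mul_sum, Finset.mul_sum]
  refine Finset.sum_congr rfl fun x _ => ?_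
  have hprod : ∏ i ∈ T.eraseNone, (((s i * (t * y) * x i : ℤˣ) : ℤ) : ℝ) =
      (∏ i ∈ T.eraseNone, ((s i : ℤ) : ℝ)) * (((t * y : ℤˣ) : ℤ) : ℝ) ^ T.eraseNone.card *
        ∏ i ∈ T.eraseNone, ((x i : ℤ) : ℝ) := by
    simp only [Units.val_mul, Int.cast_mul]
    rw [Finset.prod_mul_distrib, Finset.prod_mul_distrib, Finset.prod_const]
  rw [hprod]
  simp only [Units.val_mul, Int.cast_mul]
  ring

theorem fourier_twist (f : (ι → ℤˣ) → ℤˣ) (s : ι → ℤˣ) (t : ℤˣ) (T : Finset (Option ι)) :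
    fourier (twist f s t) T =
      if Odd T.card then
        ((t : ℤ) : ℝ) ^ (1 + T.eraseNone.card) * (∏ i ∈ T.eraseNone, ((s i : ℤ) : ℝ)) *
          fourier f T.eraseNone
      else 0 := by
  unfold fourier
  rw [twist_sum, sum_units, Fintype.card_option]
  have h2 : (2 : ℝ) ^ Fintype.card ι ≠ 0 := by positivity
  set k := T.eraseNone.card with hk
  set A := ∏ i ∈ T.eraseNone, ((s i : ℤ) : ℝ)
  set B := ∑ x : ι → ℤˣ, ((f x : ℤ) : ℝ) * ∏ i ∈ T.eraseNone, ((x i : ℤ) : ℝ)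
  set τ := ((t : ℤ) : ℝ)
  have e1 : (((t * 1 : ℤˣ) : ℤ) : ℝ) = τ := by simp [τ]
  have e2 : (((t * -1 : ℤˣ) : ℤ) : ℝ) = -τ := by simp [τ]
  rw [e1, e2]
  by_cases hn : none ∈ T
  · have hc : T.card = k + 1 := by
      have := Finset.card_eraseNone_of_mem hn
      have hpos : 0 < T.card := Finset.card_pos.mpr ⟨none, hn⟩
      omega
    simp only [hn, if_true, hc]
    by_cases hodd : Odd (k + 1)
    · rw [if_pos hodd]
      have : (-τ) ^ (1 + k) = -(τ ^ (1 + k)) := by
        rw [add_comm 1 k, neg_pow, hodd.neg_one_pow]; ring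
      rw [this]
      simp only [Units.val_neg, Units.val_one, Int.cast_neg, Int.cast_one]
      field_simp
      ring
    · rw [if_neg hodd]
      have heven : Even (k + 1) := Nat.not_odd_iff_even.mp hodd
      have : (-τ) ^ (1 + k) = τ ^ (1 + k) := by
        rw [add_comm 1 k, neg_pow, heven.neg_one_pow]; ring
      rw [this]
      simp
  · have hc : T.card = k := by
      have := Finset.card_eraseNone_of_not_mem hn
      omega
    simp only [hn, if_false, hc]
    by_cases hodd : Odd k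
    · rw [if_pos hodd]
      have heven : Even (1 + k) := by
        rw [add_comm]; exact hodd.add_one
      have : (-τ) ^ (1 + k) = τ ^ (1 + k) := by
        rw [neg_pow, heven.neg_one_pow]; ring
      rw [this]
      field_simp
      ring
    · rw [if_neg hodd]
      have heven : Even k := Nat.not_odd_iff_even.mp hodd
      have hodd' : Odd (1 + k) := by
        rw [add_comm]; exact heven.add_one
      have : (-τ) ^ (1 + k) = -(τ ^ (1 + k)) := by
        rw [neg_pow, hodd'.neg_one_pow]; ring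
      rw [this]
      simp

end Vale.Agent.Lib.P047
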