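import Vale.Agent.Lib.P047.Unate

namespace Vale.Agent.Lib.P047

open Finset

set_option linter.unusedSectionVars false

variable {ι : Type*} [Fintype ι] [DecidableEq ι]

theorem node_id2 (k : ℕ) (hk : k ≤ 2) :
    (k : ℝ) * (2 * (0 : ℝ) ^ (k - 1)) = 1 - (-1) ^ k := by
  interval_cases k <;> norm_num

theorem node_id4 (k : ℕ) (hk : k ≤ 4) :
    (k : ℝ) * (4 / 3 * (0 : ℝ) ^ (k - 1) + 1 / 3 * ((1 : ℝ) ^ (k - 1) + (-1) ^ (k - 1))) =
      1 - (-1) ^ k := by
  interval_cases k <;> norm_num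

theorem node_id6 (a : ℝ) (ha : a ^ 2 = 3 / 5) (k : ℕ) (hk : k ≤ 6) :
    (k : ℝ) * (8 / 9 * (0 : ℝ) ^ (k - 1) + 5 / 9 * (a ^ (k - 1) + (-a) ^ (k - 1))) =
      1 - (-1) ^ k := by
  have ha4 : a ^ 4 = 9 / 25 := by
    have : a ^ 4 = (a ^ 2) ^ 2 := by ring
    rw [this, ha]; norm_num
  interval_cases k
  · norm_num
  · norm_num
  · norm_num
  · norm_num
    linear_combination (10 / 3 : ℝ) * ha
  · norm_num
    ring
  · norm_num
    linear_combination (50 / 9 : ℝ) * ha4
  · norm_num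
    ring

theorem node_id8 (b : ℝ) (hb : b ^ 2 = 3 / 7) (k : ℕ) (hk : k ≤ 8) :
    (k : ℝ) * (32 / 45 * (0 : ℝ) ^ (k - 1) + 49 / 90 * (b ^ (k - 1) + (-b) ^ (k - 1)) +
      1 / 10 * ((1 : ℝ) ^ (k - 1) + (-1) ^ (k - 1))) = 1 - (-1) ^ k := by
  have hb4 : b ^ 4 = 9 / 49 := by
    have : b ^ 4 = (b ^ 2) ^ 2 := by ring
    rw [this, hb]; norm_num
  have hb6 : b ^ 6 = 27 / 343 := by
    have : b ^ 6 = (b ^ 2) ^ 3 := by ring
    rw [this, hb]; norm_num
  interval_cases k
  · norm_num
  · norm_num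
  · norm_num
  · norm_num
    linear_combination (49 / 15 : ℝ) * hb
  · norm_num
    ring
  · norm_num
    linear_combination (49 / 9 : ℝ) * hb4
  · norm_num
    ring
  · norm_num
    linear_combination (343 / 45 : ℝ) * hb6
  · norm_num
    ring

theorem card_le_of_ne (g : (ι → ℤˣ) → ℤˣ) (D : ℕ) (hd : degree g ≤ D) (S : Finset ι)
    (h0 : fourier g S ≠ 0) : S.card ≤ D :=
  (card_le_degree g S h0).trans hd

theorem quad2 (g : (ι → ℤˣ) → ℤˣ) (hd : degree g ≤ 2) :
    2 * Qd g 0 = ((g 1 : ℤ) : ℝ) - ((g (-1) : ℤ) : ℝ) := by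
  rw [endpoint_diff]
  unfold Qd
  rw [Finset.mul_sum]
  refine Finset.sum_congr rfl fun S _ => ?_
  by_cases h0 : fourier g S = 0
  · simp [h0]
  · have h := node_id2 S.card (card_le_of_ne g 2 hd S h0)
    linear_combination (fourier g S) * h

theorem quad4 (g : (ι → ℤˣ) → ℤˣ) (hd : degree g ≤ 4) :
    4 / 3 * Qd g 0 + 1 / 3 * (Qd g 1 + Qd g (-1)) =
      ((g 1 : ℤ) : ℝ) - ((g (-1) : ℤ) : ℝ) := by
  rw [endpoint_diff]
  unfold Qd
  rw [← Finset.sum_add_distrib, Finset.mul_sum, Finset.mul_sum, ← Finset.sum_add_distrib]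
  refine Finset.sum_congr rfl fun S _ => ?_
  by_cases h0 : fourier g S = 0
  · simp [h0]
  · have h := node_id4 S.card (card_le_of_ne g 4 hd S h0)
    linear_combination (fourier g S) * h

theorem quad6 (g : (ι → ℤˣ) → ℤˣ) (hd : degree g ≤ 6) (a : ℝ) (ha : a ^ 2 = 3 / 5) :
    8 / 9 * Qd g 0 + 5 / 9 * (Qd g a + Qd g (-a)) =
      ((g 1 : ℤ) : ℝ) - ((g (-1) : ℤ) : ℝ) := by
  rw [endpoint_diff]
  unfold Qd
  rw [← Finset.sum_add_distrib, Finset.mul_sum, Finset.mul_sum, ← Finset.sum_add_distrib]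
  refine Finset.sum_congr rfl fun S _ => ?_
  by_cases h0 : fourier g S = 0
  · simp [h0]
  · have h := node_id6 a ha S.card (card_le_of_ne g 6 hd S h0)
    linear_combination (fourier g S) * h

theorem quad8 (g : (ι → ℤˣ) → ℤˣ) (hd : degree g ≤ 8) (b : ℝ) (hb : b ^ 2 = 3 / 7) :
    32 / 45 * Qd g 0 + 49 / 90 * (Qd g b + Qd g (-b)) + 1 / 10 * (Qd g 1 + Qd g (-1)) =
      ((g 1 : ℤ) : ℝ) - ((g (-1) : ℤ) : ℝ) := by
  rw [endpoint_diff]
  unfold Qd
  rw [← Finset.sum_add_distrib, ← Finset.sum_add_distrib, Finset.mul_sum, Finset.mul_sum,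
    Finset.mul_sum, ← Finset.sum_add_distrib, ← Finset.sum_add_distrib]
  refine Finset.sum_congr rfl fun S _ => ?_
  by_cases h0 : fourier g S = 0
  · simp [h0]
  · have h := node_id8 b hb S.card (card_le_of_ne g 8 hd S h0)
    linear_combination (fourier g S) * h

section monotone

variable (g : (ι → ℤˣ) → ℤˣ) (hg : Monotone g)

include hg in
theorem mono_le2 (hd : degree g ≤ 2) : ∑ i, fourier g {i} ≤ 1 := by
  have h := quad2 g hd
  have h2 := endpoint_diff_le g
  rw [Qd_zero] at h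
  linarith

include hg in
theorem mono_le4 (hd : degree g ≤ 4) : ∑ i, fourier g {i} ≤ 3 / 2 := by
  have h := quad4 g hd
  have h2 := endpoint_diff_le g
  have h3 := Qd_nonneg g hg 1 (by simp)
  have h4 := Qd_nonneg g hg (-1) (by simp)
  rw [Qd_zero] at h
  linarith

include hg in
theorem mono_lt6 (hd : degree g ≤ 6) : ∑ i, fourier g {i} < 9 / 4 := by
  by_cases hpos : ∑ i, fourier g {i} ≤ 0
  · linarith
  · push Not at hpos
    set a := Real.sqrt (3 / 5) with ha_def
    have ha : a ^ 2 = 3 / 5 := Real.sq_sqrt (by norm_num)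
    have ha0 : 0 ≤ a := Real.sqrt_nonneg _
    have ha1 : a < 1 := by nlinarith
    have habs : |a| < 1 := by rw [abs_of_nonneg ha0]; exact ha1
    have habs' : |-a| ≤ 1 := by rw [abs_neg]; exact habs.le
    obtain ⟨i, hi⟩ : ∃ i, 0 < fourier g {i} := by
      by_contra hcon
      push Not at hcon
      have : ∑ i, fourier g {i} ≤ 0 := Finset.sum_nonpos fun i _ => hcon i
      linarith
    obtain ⟨x, hx⟩ := exists_dd_pos g i hi
    have h := quad6 g hd a ha
    have h2 := endpoint_diff_le g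
    have h3 := Qd_pos g hg a habs i x hx
    have h4 := Qd_nonneg g hg (-a) habs'
    rw [Qd_zero] at h
    linarith

include hg in
theorem mono_le8 (hd : degree g ≤ 8) : ∑ i, fourier g {i} ≤ 45 / 16 := by
  set b := Real.sqrt (3 / 7) with hb_def
  have hb : b ^ 2 = 3 / 7 := Real.sq_sqrt (by norm_num)
  have hb0 : 0 ≤ b := Real.sqrt_nonneg _
  have hb1 : b ≤ 1 := by nlinarith
  have habs : |b| ≤ 1 := by rw [abs_of_nonneg hb0]; exact hb1
  have habs' : |-b| ≤ 1 := by rw [abs_neg]; exact habs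
  have h := quad8 g hd b hb
  have h2 := endpoint_diff_le g
  have h3 := Qd_nonneg g hg b habs
  have h4 := Qd_nonneg g hg (-b) habs'
  have h5 := Qd_nonneg g hg 1 (by simp)
  have h6 := Qd_nonneg g hg (-1) (by simp)
  rw [Qd_zero] at h
  linarith

end monotone

section unate

variable (f : (ι → ℤˣ) → ℤˣ) (s : ι → ℤˣ) (hmono : Monotone fun x => f (s * x))

include hmono in
theorem unate_sum_eq :
    ∑ i, |fourier f {i}| = ∑ i, fourier (fun x => f (s * x)) {i} := by
  refine Finset.sum_congr rfl fun i _ => ?_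
  rw [← abs_fourier_mul f s {i}, abs_of_nonneg (fourier_singleton_nonneg _ hmono i)]

include hmono in
theorem unate_le4 (hd : degree f ≤ 4) : ∑ i, |fourier f {i}| ≤ 3 / 2 := by
  rw [unate_sum_eq f s hmono]
  exact mono_le4 _ hmono (by rw [degree_mul]; exact hd)

include hmono in
theorem unate_lt6 (hd : degree f ≤ 6) : ∑ i, |fourier f {i}| < 9 / 4 := by
  rw [unate_sum_eq f s hmono]
  exact mono_lt6 _ hmono (by rw [degree_mul]; exact hd)

include hmono in
theorem unate_le8 (hd : degree f ≤ 8) : ∑ i, |fourier f {i}| ≤ 45 / 16 := by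
  rw [unate_sum_eq f s hmono]
  exact mono_le8 _ hmono (by rw [degree_mul]; exact hd)

include hmono in
theorem unate_le2 (hd : degree f ≤ 2) : ∑ i, |fourier f {i}| ≤ 1 := by
  rw [unate_sum_eq f s hmono]
  exact mono_le2 _ hmono (by rw [degree_mul]; exact hd)

/-- In degree five the level-one sum is an integer multiple of `1/16`. -/
theorem sum_abs_sixteenth (hd : degree f ≤ 5) :
    ∃ k : ℤ, ∑ i, |fourier f {i}| = (k : ℝ) / 16 := by
  have hmem : ∑ i, |fourier f {i}| ∈ AddSubgroup.zmultiples ((1 : ℝ) / 2 ^ (5 - 1)) := by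
    apply sum_mem
    intro i _
    have h := fourier_mem_zmultiples f 5 (by norm_num) hd {i} (Finset.singleton_nonempty i)
    rcases abs_choice (fourier f {i}) with h1 | h1
    · rw [h1]; exact h
    · rw [h1]; exact neg_mem h
  obtain ⟨k, hk⟩ := AddSubgroup.mem_zmultiples_iff.mp hmem
  refine ⟨k, ?_⟩
  rw [← hk, zsmul_eq_mul]
  norm_num
  ring

include hmono in
/-- The square-root bound for unate Boolean functions of degree at most six or equal to eight. -/
theorem unate_sqrt (hd : degree f ≤ 6 ∨ degree f = 8) :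
    ∑ i, |fourier f {i}| ≤ Real.sqrt (degree f) := by
  have hnn : 0 ≤ ∑ i, |fourier f {i}| := Finset.sum_nonneg fun i _ => abs_nonneg _
  have key : ∀ D : ℕ, degree f = D → (∑ i, |fourier f {i}|) ^ 2 ≤ (D : ℝ) →
      ∑ i, |fourier f {i}| ≤ Real.sqrt (degree f) := by
    intro D hD hsq
    rw [hD]
    exact (Real.le_sqrt hnn (Nat.cast_nonneg D)).mpr hsq
  have hdeg := sum_abs_le_degree f
  have hcases : degree f = 0 ∨ degree f = 1 ∨ degree f = 2 ∨ degree f = 3 ∨ degree f = 4 ∨
      degree f = 5 ∨ degree f = 6 ∨ degree f = 8 := by omega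
  rcases hcases with h | h | h | h | h | h | h | h
  · apply key 0 h
    rw [h] at hdeg
    push_cast at hdeg ⊢
    nlinarith
  · apply key 1 h
    rw [h] at hdeg
    push_cast at hdeg ⊢
    nlinarith
  · apply key 2 h
    have := unate_le2 f s hmono (by omega)
    push_cast
    nlinarith
  · apply key 3 h
    have := unate_le4 f s hmono (by omega)
    push_cast
    nlinarith
  · apply key 4 h
    have := unate_le4 f s hmono (by omega)
    push_cast
    nlinarith
  · apply key 5 h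
    have hlt := unate_lt6 f s hmono (by omega)
    obtain ⟨k, hk⟩ := sum_abs_sixteenth f (by omega)
    have hk35 : k ≤ 35 := by
      by_contra hcon
      push Not at hcon
      have : (36 : ℝ) ≤ (k : ℝ) := by exact_mod_cast hcon
      rw [hk] at hlt
      linarith
    have hk' : (k : ℝ) ≤ 35 := by exact_mod_cast hk35
    have hle : ∑ i, |fourier f {i}| ≤ 35 / 16 := by rw [hk]; linarith
    push_cast
    nlinarith
  · apply key 6 h
    have := unate_lt6 f s hmono (by omega)
    push_cast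
    nlinarith
  · apply key 8 h
    have := unate_le8 f s hmono (by omega)
    push_cast
    nlinarith

end unate

end Vale.Agent.Lib.P047
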