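import Vale.Agent.Lib.P047.CubeSum

/-!
# A fast Walsh-Hadamard transform on truth tables, for kernel evaluation

`tabOf n F` lists the values of `F` on the cube, `had n` is the fast transform and `specOf n F`
lists the character sums `∑_x F(x) χ_S(x)`; `allHigh n k l` checks that the entries of a
transformed table that belong to sets of size at least `k` all vanish.
-/

namespace Vale.Agent.Lib.P047

open Finset

/-- The values of `F` on the cube, first coordinate most significant. -/
def tabOf : (n : ℕ) → ((Fin n → ℤˣ) → ℤ) → List ℤ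
  | 0, F => [F Fin.elim0]
  | n + 1, F => tabOf n (fun y => F (Fin.cons 1 y)) ++ tabOf n (fun y => F (Fin.cons (-1) y))

/-- The character sums of `F`, in the same recursive order. -/
def specOf : (n : ℕ) → ((Fin n → ℤˣ) → ℤ) → List ℤ
  | 0, F => [F Fin.elim0]
  | n + 1, F => specOf n (fun y => F (Fin.cons 1 y) + F (Fin.cons (-1) y)) ++
      specOf n (fun y => F (Fin.cons 1 y) - F (Fin.cons (-1) y))

/-- The fast transform of a list of length `2^n`. -/
def had : ℕ → List ℤ → List ℤ
  | 0, l => l
  | n + 1, l =>
      List.zipWith (fun a b => a + b) (had n (l.take (2 ^ n))) (had n (l.drop (2 ^ n))) ++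
      List.zipWith (fun a b => a - b) (had n (l.take (2 ^ n))) (had n (l.drop (2 ^ n)))

/-- All entries belonging to sets of size at least `k` vanish. -/
def allHigh : ℕ → ℕ → List ℤ → Bool
  | 0, k, l => decide (k = 0 → l = [0])
  | n + 1, k, l => allHigh n k (l.take (2 ^ n)) && allHigh n (k - 1) (l.drop (2 ^ n))

theorem length_tabOf : ∀ (n : ℕ) (F : (Fin n → ℤˣ) → ℤ), (tabOf n F).length = 2 ^ n
  | 0, F => by simp [tabOf]
  | n + 1, F => by
      rw [tabOf, List.length_append, length_tabOf n, length_tabOf n]; ring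

theorem length_specOf : ∀ (n : ℕ) (F : (Fin n → ℤˣ) → ℤ), (specOf n F).length = 2 ^ n
  | 0, F => by simp [specOf]
  | n + 1, F => by
      rw [specOf, List.length_append, length_specOf n, length_specOf n]; ring

theorem specOf_add : ∀ (n : ℕ) (F G : (Fin n → ℤˣ) → ℤ),
    List.zipWith (fun a b => a + b) (specOf n F) (specOf n G) = specOf n (fun y => F y + G y)
  | 0, F, G => by simp [specOf]
  | n + 1, F, G => by
      rw [specOf, specOf, List.zipWith_append (by rw [length_specOf, length_specOf]),
        specOf_add n, specOf_add n, specOf]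
      congr 2 <;> funext y <;> ring

theorem specOf_sub : ∀ (n : ℕ) (F G : (Fin n → ℤˣ) → ℤ),
    List.zipWith (fun a b => a - b) (specOf n F) (specOf n G) = specOf n (fun y => F y - G y)
  | 0, F, G => by simp [specOf]
  | n + 1, F, G => by
      rw [specOf, specOf, List.zipWith_append (by rw [length_specOf, length_specOf]),
        specOf_sub n, specOf_sub n, specOf]
      congr 2 <;> funext y <;> ring

theorem had_tabOf : ∀ (n : ℕ) (F : (Fin n → ℤˣ) → ℤ), had n (tabOf n F) = specOf n F
  | 0, F => by simp [had, tabOf, specOf]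
  | n + 1, F => by
      rw [had, tabOf, List.take_left' (length_tabOf n _), List.drop_left' (length_tabOf n _),
        had_tabOf n, had_tabOf n, specOf_add, specOf_sub, specOf]

/-- The character sum of `F` at the set `S`. -/
def entry (n : ℕ) (F : (Fin n → ℤˣ) → ℤ) (S : Finset (Fin n)) : ℤ :=
  ∑ x : Fin n → ℤˣ, F x * ∏ i ∈ S, ((x i : ℤˣ) : ℤ)

theorem prod_cons (n : ℕ) (S : Finset (Fin (n + 1))) (a : ℤˣ) (y : Fin n → ℤˣ) :
    ∏ i ∈ S, (((Fin.cons a y : Fin (n + 1) → ℤˣ) i : ℤˣ) : ℤ) =
      (if (0 : Fin (n + 1)) ∈ S then ((a : ℤˣ) : ℤ) else 1) *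
        ∏ j ∈ univ.filter (fun j : Fin n => Fin.succ j ∈ S), ((y j : ℤˣ) : ℤ) := by
  rw [← Finset.prod_filter_mul_prod_filter_not S (fun i => i = 0)]
  congr 1
  · by_cases h0 : (0 : Fin (n + 1)) ∈ S
    · have : S.filter (fun i => i = 0) = {0} := by
        ext i; simp only [mem_filter, mem_singleton]
        constructor
        · exact fun h => h.2
        · rintro rfl; exact ⟨h0, rfl⟩
      rw [this, Finset.prod_singleton, if_pos h0, Fin.cons_zero]
    · have : S.filter (fun i => i = 0) = ∅ := by
        ext i; simp only [mem_filter, notMem_empty, iff_false, not_and]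
        rintro hi rfl; exact h0 hi
      rw [this, Finset.prod_empty, if_neg h0]
  · have : S.filter (fun i => ¬ i = 0) =
        (univ.filter (fun j : Fin n => Fin.succ j ∈ S)).map (Fin.succEmb n) := by
      ext i
      simp only [mem_filter, mem_map, mem_univ, true_and, Fin.coe_succEmb]
      constructor
      · rintro ⟨hi, hne⟩
        obtain ⟨j, rfl⟩ := Fin.exists_succ_eq_of_ne_zero hne
        exact ⟨j, hi, rfl⟩
      · rintro ⟨j, hj, rfl⟩
        exact ⟨hj, Fin.succ_ne_zero j⟩
    rw [this, Finset.prod_map]
    simp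

theorem card_cons (n : ℕ) (S : Finset (Fin (n + 1))) :
    S.card = (if (0 : Fin (n + 1)) ∈ S then 1 else 0) +
      (univ.filter (fun j : Fin n => Fin.succ j ∈ S)).card := by
  rw [← Finset.card_filter_add_card_filter_not (s := S) (fun i => i = 0)]
  congr 1
  · by_cases h0 : (0 : Fin (n + 1)) ∈ S
    · have : S.filter (fun i => i = 0) = {0} := by
        ext i; simp only [mem_filter, mem_singleton]
        constructor
        · exact fun h => h.2
        · rintro rfl; exact ⟨h0, rfl⟩
      rw [this, Finset.card_singleton, if_pos h0]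
    · have : S.filter (fun i => i = 0) = ∅ := by
        ext i; simp only [mem_filter, notMem_empty, iff_false, not_and]
        rintro hi rfl; exact h0 hi
      rw [this, Finset.card_empty, if_neg h0]
  · have : S.filter (fun i => ¬ i = 0) =
        (univ.filter (fun j : Fin n => Fin.succ j ∈ S)).map (Fin.succEmb n) := by
      ext i
      simp only [mem_filter, mem_map, mem_univ, true_and, Fin.coe_succEmb]
      constructor
      · rintro ⟨hi, hne⟩
        obtain ⟨j, rfl⟩ := Fin.exists_succ_eq_of_ne_zero hne
        exact ⟨j, hi, rfl⟩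
      · rintro ⟨j, hj, rfl⟩
        exact ⟨hj, Fin.succ_ne_zero j⟩
    rw [this, Finset.card_map]

theorem entry_succ (n : ℕ) (F : (Fin (n + 1) → ℤˣ) → ℤ) (S : Finset (Fin (n + 1))) :
    entry (n + 1) F S =
      if (0 : Fin (n + 1)) ∈ S then
        entry n (fun y => F (Fin.cons 1 y) - F (Fin.cons (-1) y))
          (univ.filter (fun j : Fin n => Fin.succ j ∈ S))
      else
        entry n (fun y => F (Fin.cons 1 y) + F (Fin.cons (-1) y))
          (univ.filter (fun j : Fin n => Fin.succ j ∈ S)) := by
  unfold entry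
  rw [← (Fin.consEquiv (fun _ : Fin (n + 1) => ℤˣ)).sum_comp, Fintype.sum_prod_type]
  rw [UnitsInt.univ, Finset.sum_insert (by decide), Finset.sum_singleton]
  have hce : ∀ (a : ℤˣ) (y : Fin n → ℤˣ),
      (Fin.consEquiv (fun _ : Fin (n + 1) => ℤˣ)) (a, y) = Fin.cons a y := fun a y => rfl
  simp only [hce, prod_cons]
  rw [← Finset.sum_add_distrib]
  split_ifs with h0
  · refine Finset.sum_congr rfl fun y _ => ?_
    simp only [Units.val_one, Units.val_neg]
    ring
  · refine Finset.sum_congr rfl fun y _ => ?_
    ring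

theorem allHigh_sound : ∀ (n k : ℕ) (F : (Fin n → ℤˣ) → ℤ), allHigh n k (specOf n F) = true →
    ∀ S : Finset (Fin n), k ≤ S.card → entry n F S = 0
  | 0, k, F, h, S, hS => by
      have hS0 : S = ∅ := Finset.eq_empty_of_isEmpty S
      subst hS0
      have hk : k = 0 := by simpa using hS
      subst hk
      simp only [allHigh, specOf, decide_eq_true_eq, forall_const] at h
      have h0 : F Fin.elim0 = 0 := by simpa using h
      unfold entry
      rw [Fintype.sum_eq_single (Fin.elim0 : Fin 0 → ℤˣ)
        (fun x hx => absurd (Subsingleton.elim x _) hx)]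
      simp [h0]
  | n + 1, k, F, h, S, hS => by
      rw [allHigh, specOf, List.take_left' (length_specOf n _),
        List.drop_left' (length_specOf n _), Bool.and_eq_true] at h
      rw [entry_succ]
      have hc := card_cons n S
      split_ifs with h0
      · rw [if_pos h0] at hc
        exact allHigh_sound n (k - 1) _ h.2 _ (by omega)
      · rw [if_neg h0] at hc
        exact allHigh_sound n k _ h.1 _ (by omega)

theorem fourier_eq_entry (n : ℕ) (f : (Fin n → ℤˣ) → ℤˣ) (S : Finset (Fin n)) :
    fourier f S = ((entry n (fun x => ((f x : ℤˣ) : ℤ)) S : ℤ) : ℝ) / 2 ^ n := by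
  unfold fourier entry
  rw [Fintype.card_fin]
  push_cast
  rfl

/-- Kernel-checkable criterion for the degree. -/
theorem degree_le_of_allHigh (n d : ℕ) (f : (Fin n → ℤˣ) → ℤˣ)
    (h : allHigh n (d + 1) (had n (tabOf n (fun x => ((f x : ℤˣ) : ℤ)))) = true) :
    degree f ≤ d := by
  apply degree_le_of
  intro S hS
  by_contra hcon
  apply hS
  rw [had_tabOf] at h
  rw [fourier_eq_entry, allHigh_sound n (d + 1) _ h S (by omega)]
  simp

end Vale.Agent.Lib.P047
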